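import Mathlib
import Vale.Agent.P027.Bdl.B1

/-! Capture of a common prime, with the quadratic field of three. -/

namespace Vale.Agent.P027.T2

open Vale.Agent.P027

/-- primes for which three is a quadratic nonresidue -/
def Inert3 (q : ℕ) : Prop := q.Prime ∧ (q % 12 = 5 ∨ q % 12 = 7)

/-- `b` is congruent to five modulo twelve, locally -/
def Five12 (b : ℚ) : Prop :=
  0 ≤ padicValRat 2 ((b - 5) / 12) ∧ 0 ≤ padicValRat 3 ((b - 5) / 12)

def Cap3 (a b : ℚ) : Prop :=
  a ≠ 0 ∧ (∃ e f : ℚ, a = e ^ 2 - 3 * f ^ 2) ∧ ∃ u v : ℚ, 3 * a = u ^ 2 - b * v ^ 2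

def Con3 (a b r : ℚ) : Prop := ∃ x z : ℚ, x ^ 2 - a * z ^ 2 = 1 + 12 * b * r ^ 2

lemma not_sq_two_three : ¬ IsSquare ((2 : ℕ) : ZMod 3) := by
  decide

section sound

variable {q : ℕ} [hq : Fact q.Prime]

lemma NR_three (h : q % 12 = 5 ∨ q % 12 = 7) : NR q 3 := by
  have h1 : ¬ IsSquare ((3 : ℤ) : ZMod q) := by
    have : Fact (Nat.Prime 3) := ⟨Nat.prime_three⟩
    have hq3 : (3 : ℕ) ≠ q := by rintro rfl; omega
    rw [show ((3 : ℤ) : ZMod q) = ((3 : ℕ) : ZMod q) by norm_num]
    rcases h with h | h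
    · rw [ZMod.exists_sq_eq_prime_iff_of_mod_four_eq_one (p := q) (q := 3) (by omega) (by norm_num)]
      have e : ((q : ℕ) : ZMod 3) = ((2 : ℕ) : ZMod 3) :=
        (ZMod.natCast_eq_natCast_iff' _ _ _).2 (by omega)
      rw [e]
      exact not_sq_two_three
    · rw [ZMod.exists_sq_eq_prime_iff_of_mod_four_eq_three (p := q) (q := 3) (by omega)
        (by norm_num) hq3.symm]
      have e : ((q : ℕ) : ZMod 3) = ((1 : ℕ) : ZMod 3) :=
        (ZMod.natCast_eq_natCast_iff' _ _ _).2 (by omega)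
      rw [e, not_not]
      exact ⟨1, by norm_num⟩
  have := NR_of_int h1
  exact_mod_cast this

/-- the quotient of nonresidue by residue -/
lemma NR_capD {D : ℚ} (h2 : NR q D) {a b e f u v : ℚ} (hb : Odd (padicValRat q b)) (ha : a ≠ 0)
    (hef : a = e ^ 2 - D * f ^ 2) (huv : D * a = u ^ 2 - b * v ^ 2) :
    ∃ ρ c : ℚ, ρ ≠ 0 ∧ NR q c ∧ a = c * ρ ^ 2 := by
  have hb0 : b ≠ 0 := by
    rintro rfl
    simp at hb
  obtain ⟨ρ, hρ⟩ := h2.norm_form' e f
  rw [← hef] at hρ
  have hρ0 : ρ ≠ 0 := by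
    rintro rfl
    rw [padicNorm.zero] at hρ
    have := pn_pos (q := q) ha
    rw [hρ] at this
    norm_num at this
  have hρpos := pn_pos (q := q) hρ0
  set U := u / ρ with hU
  set W := v / ρ with hW
  set c := a / ρ ^ 2 with hcdef
  have hac : a = c * ρ ^ 2 := by rw [hcdef]; field_simp
  have hc1 : padicNorm q c = 1 := by
    rw [hcdef, padicNorm.div, pn_sq, hρ, div_self (by (clear * - hρpos; positivity))]
  have hUW : D * c = U ^ 2 - b * W ^ 2 := by
    rw [hU, hW, hcdef]
    field_simp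
    linear_combination huv
  have h2c : padicNorm q (D * c) = 1 := by rw [padicNorm.mul, h2.1, hc1, one_mul]
  -- the term with `b` is small
  have hsmall : padicNorm q (b * W ^ 2) < 1 := by
    by_cases hW0 : W = 0
    · rw [hW0]; simp only [ne_eq, OfNat.ofNat_ne_zero, not_false_eq_true, zero_pow, mul_zero, padicNorm.zero, zero_lt_one]
    have hbW0 : b * W ^ 2 ≠ 0 := by (clear * - hb0 hW0; positivity)
    have hodd : Odd (padicValRat q (b * W ^ 2)) := by
      rw [padicValRat.mul hb0 (by (clear * - hW0; positivity)), padicValRat.pow]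
      rw [Int.odd_iff] at hb ⊢
      push_cast
      omega
    by_contra hcon
    push Not at hcon
    rcases hcon.lt_or_eq with hlt | heq
    · have h5 : padicNorm q (U ^ 2) = padicNorm q (b * W ^ 2) := by
        have e : U ^ 2 = D * c + b * W ^ 2 := by rw [hUW]; ring
        rw [e, pn_add_right (by rw [h2c]; exact hlt)]
      have hU0 : U ≠ 0 := by
        intro h6
        rw [h6] at h5
        simp only [ne_eq, OfNat.ofNat_ne_zero, not_false_eq_true, zero_pow, padicNorm.zero] at h5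
        exact padicNorm.nonzero hbW0 h5.symm
      rw [pn_eq_iff (by (clear * - hU0; positivity)) hbW0, padicValRat.pow] at h5
      rw [← h5, Int.odd_iff] at hodd
      push_cast at hodd
      omega
    · have h6 : padicNorm q (b * W ^ 2) = padicNorm q 1 := by rw [← heq, padicNorm.one]
      rw [pn_eq_iff hbW0 one_ne_zero] at h6
      rw [h6] at hodd
      simp at hodd
  refine ⟨ρ, c, hρ0, ⟨hc1, fun s => ?_⟩, hac⟩
  by_contra hcon
  push Not at hcon
  have hs1 : padicNorm q s = 1 := by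
    have e : s ^ 2 = c - (c - s ^ 2) := by ring
    have h7 : padicNorm q (s ^ 2) = 1 := by
      rw [e, pn_sub_left (by rw [hc1]; exact hcon), hc1]
    rw [pn_sq] at h7
    exact (pow_eq_one_iff_of_nonneg (padicNorm.nonneg _) (by norm_num)).1 h7
  have hs0 : s ≠ 0 := by
    rintro rfl
    rw [padicNorm.zero] at hs1
    norm_num at hs1
  have h8 := h2.2 (U / s)
  have e8 : D - (U / s) ^ 2 = -((D * (c - s ^ 2) + -(D * c - U ^ 2)) / s ^ 2) := by
    field_simp; ring
  have h9 : padicNorm q (D * (c - s ^ 2) + -(D * c - U ^ 2)) < 1 := by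
    refine padicNorm.nonarchimedean.trans_lt (max_lt ?_ ?_)
    · rw [padicNorm.mul, h2.1, one_mul]; exact hcon
    · rw [padicNorm.neg]
      have e9 : D * c - U ^ 2 = -(b * W ^ 2) := by rw [hUW]; ring
      rw [e9, padicNorm.neg]; exact hsmall
  rw [e8, padicNorm.neg, padicNorm.div, pn_sq, hs1, one_pow, div_one] at h8
  linarith only [h8, h9]

end sound

/-- soundness of the prime capture -/
theorem capture3_sound {a b r : ℚ} {q : ℕ} (hq : Inert3 q) (hb : Odd (padicValRat q b))
    (hc : Cap3 a b) (h : Con3 a b r) : r = 0 ∨ 0 ≤ padicValRat q (b * r ^ 2) := by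
  have : Fact q.Prime := ⟨hq.1⟩
  by_contra hcon
  push Not at hcon
  obtain ⟨hr0, hneg⟩ := hcon
  obtain ⟨ha, ⟨e, f, hef⟩, u, v, huv⟩ := hc
  obtain ⟨ρ, c, hρ0, hNR, hac⟩ := NR_capD (NR_three hq.2) hb ha hef huv
  obtain ⟨x, z, hxz⟩ := h
  have hb0 : b ≠ 0 := by
    rintro rfl
    simp at hb
  have hbr0 : b * r ^ 2 ≠ 0 := by (clear * - hb0 hr0; positivity)
  have hlarge : 1 < padicNorm q (b * r ^ 2) := by
    by_contra h1
    push Not at h1
    rw [pn_le_one_iff] at h1
    omega
  have h4 : padicNorm q 12 = 1 := by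
    have h3 := (NR_three hq.2).1
    have h2 : padicNorm q (2 : ℚ) = 1 := by
      have : padicNorm q ((2 : ℕ) : ℚ) = 1 := by
        rw [padicNorm.nat_eq_one_iff]
        intro hd
        have := (Nat.prime_dvd_prime_iff_eq hq.1 Nat.prime_two).1 hd
        have h5 := hq.2
        omega
      exact_mod_cast this
    rw [show (12 : ℚ) = 2 * 2 * 3 by norm_num, padicNorm.mul, padicNorm.mul, h2, h3, one_mul, one_mul]
  have e1 : padicNorm q (1 + 12 * b * r ^ 2) = padicNorm q (b * r ^ 2) := by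
    have e : padicNorm q (12 * b * r ^ 2) = padicNorm q (b * r ^ 2) := by
      rw [mul_assoc, padicNorm.mul, h4, one_mul]
    rw [pn_add_right (by rw [e, padicNorm.one]; exact hlarge), e]
  have e2 : x ^ 2 - a * z ^ 2 = x ^ 2 - c * (ρ * z) ^ 2 := by rw [hac]; ring
  rw [e2] at hxz
  obtain ⟨σ, hσ⟩ := hNR.norm_form' x (ρ * z)
  rw [hxz, e1] at hσ
  have hσ0 : σ ≠ 0 := by
    rintro rfl
    rw [padicNorm.zero] at hσ
    rw [hσ] at hlarge
    norm_num at hlarge
  rw [← pn_sq, pn_eq_iff hbr0 (by (clear * - hσ0; positivity)), padicValRat.pow,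
    padicValRat.mul hb0 (by (clear * - hr0; positivity)), padicValRat.pow] at hσ
  rw [Int.odd_iff] at hb
  push_cast at hσ
  omega

/-- a natural number congruent to five or seven modulo twelve is divisible to an odd power by a
prime of this kind -/
lemma exists_odd_factor12 (n : ℕ) : n % 2 = 1 → n % 3 ≠ 0 →
    (∀ q : ℕ, q.Prime → (q % 12 = 5 ∨ q % 12 = 7) → Even (n.factorization q)) →
    n % 12 = 1 ∨ n % 12 = 11 := by
  induction n using Nat.recOnPosPrimePosCoprime with
  | zero => intro h; omega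
  | one => intro _ _ _; left; norm_num
  | prime_pow p k hp hk =>
    intro h1 h13 h2
    have hpo : p % 2 = 1 := by
      by_contra hcon
      have : 2 ∣ p ^ k := dvd_pow (by omega) (by omega)
      omega
    have hp3 : p % 3 ≠ 0 := by
      intro hcon
      have : 3 ∣ p ^ k := dvd_pow (by omega) (by omega)
      omega
    by_cases hev : Even k
    · obtain ⟨j, rfl⟩ := hev
      have h3 : p * p % 12 = 1 := by
        have : p % 12 = 1 ∨ p % 12 = 5 ∨ p % 12 = 7 ∨ p % 12 = 11 := by omega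
        rcases this with h | h | h | h <;> simp [Nat.mul_mod, h]
      left
      rw [← two_mul, pow_mul, pow_two, Nat.pow_mod, h3]
      simp
    · have h4 : ¬ (p % 12 = 5 ∨ p % 12 = 7) := by
        intro h5
        have := h2 p hp h5
        rw [Nat.factorization_pow, hp.factorization] at this
        simp only [Finsupp.smul_single, smul_eq_mul, mul_one, Finsupp.single_eq_same] at this
        exact hev this
      have h6 : p % 12 = 1 ∨ p % 12 = 11 := by omega
      rcases h6 with h | h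
      · left; rw [Nat.pow_mod, h]; simp
      · obtain ⟨j, hj⟩ := Nat.not_even_iff_odd.1 hev
        right
        rw [hj, Nat.pow_mod, h, pow_succ, pow_mul, Nat.mul_mod, Nat.pow_mod]
        norm_num
  | coprime a b ha hb hab iha ihb =>
    intro h1 h13 h2
    have hao : a % 2 = 1 := by
      by_contra hcon
      have : 2 ∣ a * b := Dvd.dvd.mul_right (by omega) b
      omega
    have hbo : b % 2 = 1 := by
      by_contra hcon
      have : 2 ∣ a * b := Dvd.dvd.mul_left (by omega) a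
      omega
    have ha3 : a % 3 ≠ 0 := by
      intro hcon
      have : 3 ∣ a * b := Dvd.dvd.mul_right (by omega) b
      omega
    have hb3 : b % 3 ≠ 0 := by
      intro hcon
      have : 3 ∣ a * b := Dvd.dvd.mul_left (by omega) a
      omega
    have key : ∀ q : ℕ, q.Prime → (a * b).factorization q = a.factorization q + b.factorization q := by
      intro q hq
      rw [Nat.factorization_mul (by omega) (by omega)]
      rfl
    have hdis : ∀ q : ℕ, q.Prime → a.factorization q = 0 ∨ b.factorization q = 0 := by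
      intro q hq
      by_contra hcon
      push Not at hcon
      have h5 : q ∣ a := Nat.dvd_of_factorization_pos hcon.1
      have h6 : q ∣ b := Nat.dvd_of_factorization_pos hcon.2
      have := Nat.dvd_gcd h5 h6
      rw [hab] at this
      exact hq.one_lt.ne' (Nat.dvd_one.1 this)
    have ra := iha hao ha3 (fun q hq h8 => by
      have := h2 q hq h8
      rw [key q hq] at this
      rcases hdis q hq with h | h
      · rw [h]; exact ⟨0, rfl⟩
      · rwa [h, add_zero] at this)
    have rb := ihb hbo hb3 (fun q hq h8 => by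
      have := h2 q hq h8
      rw [key q hq] at this
      rcases hdis q hq with h | h
      · rwa [h, zero_add] at this
      · rw [h]; exact ⟨0, rfl⟩)
    rcases ra with h | h <;> rcases rb with h' | h' <;> simp [Nat.mul_mod, h, h']

/-- a local integer has denominator prime to the prime -/
lemma den_not_dvd {p : ℕ} (hp : p.Prime) {z : ℚ} (hz : 0 ≤ padicValRat p z) : ¬ p ∣ z.den := by
  have := Fact.mk hp
  intro hd
  have h1 : padicNorm p z ≤ 1 := pn_le_one_iff.2 hz
  have h4 : ¬ (p : ℤ) ∣ z.num := by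
    intro hd'
    have h5 : p ∣ Nat.gcd z.num.natAbs z.den := Nat.dvd_gcd (Int.natCast_dvd.1 hd') hd
    rw [z.reduced] at h5
    exact hp.one_lt.ne' (Nat.dvd_one.1 h5)
  have h6 : padicNorm p z = padicNorm p z.num / padicNorm p z.den := by
    rw [← padicNorm.div]
    congr 1
    exact (Rat.num_div_den z).symm
  have h7 : padicNorm p (z.num : ℚ) = 1 := (padicNorm.int_eq_one_iff _).2 h4
  have h8 : padicNorm p (z.den : ℚ) < 1 := (padicNorm.nat_lt_one_iff _).2 hd
  have h9 : 0 < padicNorm p (z.den : ℚ) := pn_pos (by exact_mod_cast z.den_ne_zero)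
  rw [h6, h7, div_le_one h9] at h1
  linarith only [h1, h8]

theorem exists_inert3_odd {b : ℚ} (hb : Five12 b) :
    ∃ q, Inert3 q ∧ Odd (padicValRat q b) := by
  obtain ⟨hb2, hb3⟩ := hb
  set z := (b - 5) / 12 with hz
  have hd2 := den_not_dvd Nat.prime_two hb2
  have hd3 := den_not_dvd Nat.prime_three hb3
  set d : ℤ := ((z.den : ℕ) : ℤ) with hd
  set N : ℤ := (5 * d + 12 * z.num) * d with hN
  have hN12 : N % 12 = 5 := by
    have hd2' : d % 2 = 1 := by omega
    have hd3' : d % 3 ≠ 0 := by omega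
    have h1 : d * d % 12 = 1 := by
      have : d % 12 = 1 ∨ d % 12 = 5 ∨ d % 12 = 7 ∨ d % 12 = 11 := by omega
      rcases this with h | h | h | h <;> simp [Int.mul_emod, h]
    have h2 : N = 5 * (d * d) + 12 * (z.num * d) := by rw [hN]; ring
    omega
  have hN0 : N ≠ 0 := by omega
  have hbN : b * (d : ℚ) ^ 2 = N := by
    have h1 : z = z.num / z.den := (Rat.num_div_den z).symm
    have h2 : b = 5 + 12 * z := by rw [hz]; ring
    have h3 : (z.den : ℚ) ≠ 0 := by exact_mod_cast z.den_ne_zero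
    rw [h2, h1, hN, hd]
    push_cast
    (clear * - h3; field_simp)
  have hd0 : (d : ℚ) ≠ 0 := by rw [hd]; exact_mod_cast z.den_ne_zero
  have hb0 : b ≠ 0 := by
    rintro rfl
    rw [zero_mul] at hbN
    exact hN0 (by exact_mod_cast hbN.symm)
  by_contra hcon
  push Not at hcon
  have h1 := exists_odd_factor12 N.natAbs (by omega) (by omega) (fun q hq h8 => by
    have : Fact q.Prime := ⟨hq⟩
    have h2 := hcon q ⟨hq, h8⟩
    rw [Int.not_odd_iff_even] at h2
    have h3 := congrArg (padicValRat q) hbN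
    have h4 : padicValRat q (N : ℚ) = padicValNat q N.natAbs := by
      rw [padicValRat.of_int, padicValInt]
    rw [padicValRat.mul hb0 (by positivity), padicValRat.pow, h4] at h3
    rw [Nat.factorization_def _ hq]
    rw [Int.even_iff] at h2
    rw [Nat.even_iff]
    generalize padicValRat q (d : ℚ) = w at h3
    generalize padicValRat q b = w' at h3 h2
    rw [Nat.cast_ofNat] at h3
    omega)
  omega

/-! Completeness. -/

theorem sq_three_mod {p : ℕ} (hp : p.Prime) (h : p % 12 = 1) :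
    ∃ t : ℤ, (p : ℤ) ∣ t ^ 2 - 3 := by
  have := Fact.mk hp
  have : Fact (Nat.Prime 3) := ⟨Nat.prime_three⟩
  apply sq_of_zmod
  rw [show ((3 : ℤ) : ZMod p) = ((3 : ℕ) : ZMod p) by norm_num,
    ZMod.exists_sq_eq_prime_iff_of_mod_four_eq_one (p := p) (q := 3) (by omega) (by norm_num)]
  have e : ((p : ℕ) : ZMod 3) = ((1 : ℕ) : ZMod 3) :=
    (ZMod.natCast_eq_natCast_iff' _ _ _).2 (by omega)
  rw [e]
  exact ⟨1, by norm_num⟩

theorem sq_neg_one_mod {p : ℕ} (hp : p.Prime) (h : p % 4 = 1) :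
    ∃ t : ℤ, (p : ℤ) ∣ t ^ 2 - (-1) := by
  have := Fact.mk hp
  apply sq_of_zmod
  have h1 := (ZMod.exists_sq_eq_neg_one_iff (p := p)).2 (by omega)
  simpa using h1

/-- choice of the auxiliary prime -/
theorem exists_prime_crt3 {b N : ℕ} (hb : b.Prime) (h24 : b % 24 = 17) (hN2 : N % 2 = 1)
    (hN3 : N % 3 ≠ 0) (hbN : Nat.Coprime b N) (M : ℕ) :
    ∃ p : ℕ, M < p ∧ p.Prime ∧ p % 24 = 1 ∧ p % b = 1 ∧ (N : ℤ) ∣ p + 3 := by
  have hb1 : 1 < b := hb.one_lt
  have h24b : Nat.Coprime 24 b := by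
    rw [Nat.coprime_comm, Nat.Prime.coprime_iff_not_dvd hb]
    intro hd
    have := Nat.le_of_dvd (by norm_num) hd
    interval_cases b <;> omega
  have h24N : Nat.Coprime 24 N := by
    rw [show 24 = 2 ^ 3 * 3 by norm_num]
    refine Nat.Coprime.mul_left (Nat.Coprime.pow_left 3 ?_) ?_
    · rw [Nat.Prime.coprime_iff_not_dvd Nat.prime_two]; omega
    · rw [Nat.Prime.coprime_iff_not_dvd Nat.prime_three]; omega
  have hco' : Nat.Coprime (24 * b) N := Nat.Coprime.mul_left h24N hbN
  have hNpos : 0 < N := by omega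
  obtain ⟨d, hd1, hd2⟩ := Nat.chineseRemainder hco' 1 (3 * N - 3)
  have hdN : (N : ℤ) ∣ d + 3 := by
    have h1 := (Nat.modEq_iff_dvd.1 hd2)
    have h2 : ((3 * N - 3 : ℕ) : ℤ) = 3 * N - 3 := by omega
    rw [h2] at h1
    have e : (d : ℤ) + 3 = 3 * N - (3 * N - 3 - d) := by ring
    rw [e]
    exact dvd_sub (dvd_mul_left _ _) h1
  have hco : Nat.Coprime d (24 * b * N) := by
    refine Nat.Coprime.mul_right ?_ ?_
    · rw [Nat.Coprime, hd1.gcd_eq]; exact Nat.gcd_one_left _
    · have h1 : IsCoprime (d : ℤ) (N : ℤ) := by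
        obtain ⟨c, hc⟩ := hdN
        have h3 : IsCoprime (3 : ℤ) (N : ℤ) := by
          have : Nat.Coprime 3 N := by
            rw [Nat.Prime.coprime_iff_not_dvd Nat.prime_three]; omega
          exact_mod_cast Nat.isCoprime_iff_coprime.2 this
        have e : (d : ℤ) = -3 + N * c := by linarith
        rw [e]
        exact (h3.neg_left).add_mul_left_left c
      exact Nat.isCoprime_iff_coprime.1 h1
  have hne : 24 * b * N ≠ 0 := by positivity
  obtain ⟨p, hp1, hp2, hp3⟩ := Nat.forall_exists_prime_gt_and_modEq M hne hco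
  have h24' : p ≡ 1 [MOD 24 * b] := (hp3.of_mul_right N).trans hd1
  refine ⟨p, hp1, hp2, ?_, ?_, ?_⟩
  · have : p ≡ 1 [MOD 24] := h24'.of_mul_right b
    exact this
  · have : p ≡ 1 [MOD b] := h24'.of_mul_left 24
    have h5 : p % b = 1 % b := this
    rwa [Nat.mod_eq_of_lt hb1] at h5
  · have h5 : p ≡ d [MOD N] := hp3.of_mul_left (24 * b)
    have h6 := Nat.modEq_iff_dvd.1 h5
    have e : (p : ℤ) + 3 = (d + 3) - (d - p) := by ring
    rw [e]
    exact dvd_sub hdN h6

/-- reciprocity: `m` is a square modulo the auxiliary prime -/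
theorem recip3 {p : ℕ} (hp24 : p % 24 = 1) {m : ℕ} (hm4 : m % 4 = 1) (hm3 : m % 3 = 1)
    (hmp : (m : ℤ) ∣ p + 3) : jacobiSym m p = 1 := by
  have hmodd : Odd m := by rw [Nat.odd_iff]; omega
  have hpodd : Odd p := by rw [Nat.odd_iff]; omega
  rw [jacobiSym.quadratic_reciprocity_one_mod_four (a := m) (b := p) (by omega) hpodd]
  have e : (p : ℤ) % m = (-3 : ℤ) % m := by
    have : (p : ℤ) ≡ -3 [ZMOD m] := Int.modEq_iff_dvd.2 (by
      have e2 : (-3 : ℤ) - p = -(p + 3) := by ring
      rw [e2]; exact (dvd_neg).2 hmp)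
    exact this
  rw [jacobiSym.mod_left' e, jacobiSym.neg _ hmodd]
  have h3 : jacobiSym 3 m = 1 := by
    have h := jacobiSym.quadratic_reciprocity_one_mod_four' (a := 3) (b := m) (by decide) hm4
    rw [show ((3 : ℕ) : ℤ) = 3 by norm_num] at h
    rw [h]
    have e3 : (m : ℤ) % ((3 : ℕ) : ℤ) = (1 : ℤ) % ((3 : ℕ) : ℤ) := by
      norm_num
      omega
    rw [jacobiSym.mod_left' e3]
    exact jacobiSym.one_left 3
  rw [h3, mul_one]
  exact ZMod.χ₄_nat_one_mod_four hm4

/-- squarefree data attached to an integer of the list -/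
theorem con3_data {b : ℕ} (hb : b.Prime) (R : ℤ) :
    ∃ (m : ℕ) (s : ℚ), Squarefree m ∧ s ≠ 0 ∧ 1 + 12 * (b : ℚ) * (R : ℚ) ^ 2 = m * s ^ 2 ∧
      m % 4 = 1 ∧ m % 3 = 1 ∧ ¬ b ∣ m ∧ m ≠ 0 := by
  obtain ⟨K, hK⟩ : ∃ K : ℕ, K = 1 + 12 * b * R.natAbs ^ 2 := ⟨_, rfl⟩
  have hK0 : K ≠ 0 := by omega
  obtain ⟨m, s, hms, hm⟩ := Nat.sq_mul_squarefree K
  have hs0 : s ≠ 0 := by
    rintro rfl
    simp at hms
    exact hK0 hms.symm
  have hm0 : m ≠ 0 := hm.ne_zero
  refine ⟨m, s, hm, by exact_mod_cast hs0, ?_, ?_, ?_, ?_, hm0⟩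
  · have h1 : ((K : ℕ) : ℚ) = 1 + 12 * (b : ℚ) * (R : ℚ) ^ 2 := by
      rw [hK]
      push_cast
      have : ((R.natAbs : ℕ) : ℚ) ^ 2 = (R : ℚ) ^ 2 := by
        rw [Nat.cast_natAbs, Int.cast_abs, sq_abs]
      rw [this]
    rw [← h1, ← hms]
    push_cast
    ring
  · have hK4 : K % 4 = 1 := by
      rw [hK]
      have : 12 * b * R.natAbs ^ 2 = 4 * (3 * b * R.natAbs ^ 2) := by ring
      omega
    rw [← hms] at hK4
    have hs2 : s % 2 = 1 := by
      by_contra hcon
      obtain ⟨t, ht⟩ : 2 ∣ s := by omega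
      rw [ht] at hK4
      have : (2 * t) ^ 2 * m = 4 * (t ^ 2 * m) := by ring
      omega
    obtain ⟨t, ht⟩ : ∃ t, s = 2 * t + 1 := ⟨s / 2, by omega⟩
    rw [ht] at hK4
    have : (2 * t + 1) ^ 2 * m = 4 * ((t ^ 2 + t) * m) + m := by ring
    omega
  · have hK3 : K % 3 = 1 := by
      rw [hK]
      have : 12 * b * R.natAbs ^ 2 = 3 * (4 * b * R.natAbs ^ 2) := by ring
      omega
    rw [← hms] at hK3
    have h2 : s ^ 2 % 3 = 0 ∨ s ^ 2 % 3 = 1 := by
      rw [Nat.pow_mod]
      have : s % 3 = 0 ∨ s % 3 = 1 ∨ s % 3 = 2 := by omega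
      rcases this with h | h | h <;> simp [h]
    rcases h2 with h | h
    · rw [Nat.mul_mod, h] at hK3
      simp at hK3
    · rw [Nat.mul_mod, h] at hK3
      omega
  · intro hd
    have h1 : b ∣ K := by
      rw [← hms]
      exact hd.mul_left _
    rw [hK] at h1
    have h2 : b ∣ 12 * b * R.natAbs ^ 2 := ⟨12 * R.natAbs ^ 2, by ring⟩
    have h3 : b ∣ 1 := (Nat.dvd_add_left h2).1 h1
    exact hb.one_lt.ne' (Nat.dvd_one.1 h3)

theorem capture3_complete {b : ℕ} (hb : b.Prime) (h24 : b % 24 = 17) (L : List ℤ) :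
    ∃ a : ℚ, Cap3 a b ∧ ∀ R ∈ L, Con3 a b R := by
  choose m s hm hs heq hm4 hm3 hbm hm0 using con3_data hb
  obtain ⟨P, hP⟩ : ∃ P : ℕ, P = (L.map m).prod := ⟨_, rfl⟩
  have hP0 : P ≠ 0 := by
    rw [hP]
    apply List.prod_ne_zero
    intro h0
    obtain ⟨r, hr, hr0⟩ := List.mem_map.1 h0
    exact hm0 r hr0
  have hdvdP : ∀ r ∈ L, m r ∣ P := by
    intro r hr
    rw [hP]
    exact List.dvd_prod (List.mem_map.2 ⟨r, hr, rfl⟩)
  have hprod : ∀ (L : List ℤ) (p : ℕ), p.Prime → p ∣ (L.map m).prod → ∃ r, p ∣ m r := by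
    intro L p hp h
    induction L with
    | nil =>
      simp at h
      exact absurd h hp.one_lt.ne'
    | cons a L ih =>
      rw [List.map_cons, List.prod_cons] at h
      rcases (Nat.Prime.dvd_mul hp).1 h with h | h
      · exact ⟨a, h⟩
      · exact ih h
  have hP2 : P % 2 = 1 := by
    by_contra hcon
    obtain ⟨r, hr⟩ := hprod L 2 Nat.prime_two (by rw [← hP]; omega)
    have := hm4 r
    omega
  have hP3 : P % 3 ≠ 0 := by
    intro hcon
    obtain ⟨r, hr⟩ := hprod L 3 Nat.prime_three (by rw [← hP]; omega)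
    have := hm3 r
    omega
  have hbP : Nat.Coprime b P := by
    rw [Nat.Prime.coprime_iff_not_dvd hb, hP]
    intro hd
    obtain ⟨r, hr⟩ := hprod L b hb hd
    exact hbm r hr
  obtain ⟨p, hpM, hp, hp24, hpb, hpP⟩ := exists_prime_crt3 hb h24 hP2 hP3 hbP (b + P)
  have hp0 : (0 : ℤ) < p := by exact_mod_cast hp.pos
  have hb0 : (0 : ℤ) < b := by exact_mod_cast hb.pos
  have hpneb : p ≠ b := by omega
  refine ⟨-3 * p, ⟨?_, ?_, ?_⟩, ?_⟩
  · have : (p : ℚ) ≠ 0 := by exact_mod_cast hp.ne_zero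
    exact mul_ne_zero (by norm_num) this
  · -- p is a norm
    obtain ⟨t, ht⟩ := sq_three_mod hp (by omega)
    obtain ⟨x, z, hxz⟩ := gconic1 (α := (p : ℤ)) (β := 3) (s := 1) (t := t) hp0 (by norm_num)
      (by
        have : Nat.Coprime p 3 := by
          rw [Nat.coprime_primes hp Nat.prime_three]
          rintro rfl; omega
        exact_mod_cast Nat.isCoprime_iff_coprime.2 this)
      (by omega) ht (fun k hk => by
        have := prime_not_sq Nat.prime_three k
        exact this (by exact_mod_cast hk))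
    refine ⟨3 * z, x, ?_⟩
    push_cast at hxz
    rw [hxz]
    ring
  · obtain ⟨t, ht⟩ := sq_neg_one_mod hb (by omega)
    have hJ : jacobiSym b p = 1 := by
      have hpodd : Odd p := by rw [Nat.odd_iff]; omega
      rw [jacobiSym.quadratic_reciprocity_one_mod_four (a := b) (b := p) (by omega) hpodd]
      have e : (p : ℤ) % b = (1 : ℤ) % b := by
        have h1 : ((p % b : ℕ) : ℤ) = 1 := by rw [hpb]; norm_num
        rw [Int.natCast_mod] at h1
        rw [h1]
        exact (Int.emod_eq_of_lt (by norm_num) (by exact_mod_cast hb.one_lt)).symm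
      rw [jacobiSym.mod_left' e]
      exact jacobiSym.one_left b
    obtain ⟨t', ht'⟩ := sq_of_jacobi hp hJ
    have hco : IsCoprime (b : ℤ) (-(p : ℤ)) := by
      have : Nat.Coprime b p := (Nat.coprime_primes hb hp).2 hpneb.symm
      exact (Nat.isCoprime_iff_coprime.2 this).neg_right
    obtain ⟨x, z, hxz⟩ := gconic2 (α := (b : ℤ)) (β := -(p : ℤ)) (s := t') (t := t) hb0
      (by omega) hco ((neg_dvd).2 ht') (by
        have h1 : (b : ℤ) ∣ (1 : ℤ) - p := by
          have : p ≡ 1 [MOD b] := by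
            have h5 : p % b = 1 % b := by rw [hpb, Nat.mod_eq_of_lt hb.one_lt]
            exact h5
          have h6 := Nat.modEq_iff_dvd.1 this
          exact_mod_cast h6
        have e : t ^ 2 - (-(p : ℤ)) = (t ^ 2 - (-1)) - (1 - p) := by ring
        rw [e]
        exact dvd_sub ht h1) (prime_not_sq hb)
    refine ⟨3 * x, 3 * z, ?_⟩
    push_cast at hxz
    linear_combination 9 * hxz
  · intro r hr
    have hmp : (m r : ℤ) ∣ p + 3 := dvd_trans (by exact_mod_cast hdvdP r hr) hpP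
    have hJ := recip3 hp24 (hm4 r) (hm3 r) hmp
    obtain ⟨t', ht'⟩ := sq_of_jacobi hp hJ
    have hmpos : (0 : ℤ) < m r := by exact_mod_cast Nat.pos_of_ne_zero (hm0 r)
    have hmle : m r ≤ P := Nat.le_of_dvd (Nat.pos_of_ne_zero hP0) (hdvdP r hr)
    have hco3 : Nat.Coprime (m r) 3 := by
      rw [Nat.coprime_comm, Nat.Prime.coprime_iff_not_dvd Nat.prime_three]
      have := hm3 r
      omega
    have hcop : Nat.Coprime (m r) p := by
      rw [Nat.coprime_comm, Nat.Prime.coprime_iff_not_dvd hp]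
      intro hd
      have := Nat.le_of_dvd (Nat.pos_of_ne_zero (hm0 r)) hd
      omega
    have hco : IsCoprime (m r : ℤ) (-3 * (p : ℤ)) := by
      have h1 : IsCoprime (m r : ℤ) ((3 * p : ℕ) : ℤ) :=
        Nat.isCoprime_iff_coprime.2 (Nat.Coprime.mul_right hco3 hcop)
      have e : (-3 * (p : ℤ)) = -((3 * p : ℕ) : ℤ) := by push_cast; ring
      rw [e]
      exact h1.neg_right
    -- `m` is a square modulo `3 p`
    obtain ⟨s₁, hs₁⟩ : ∃ s₁ : ℤ, ((3 * p : ℕ) : ℤ) ∣ s₁ ^ 2 - (m r : ℤ) := by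
      have hsqf : Squarefree (3 * p) := by
        rw [Nat.squarefree_mul_iff]
        refine ⟨?_, Nat.prime_three.squarefree, hp.squarefree⟩
        rw [Nat.coprime_primes Nat.prime_three hp]
        rintro rfl; omega
      refine sq_mod_sqf hsqf _ (fun ℓ hℓ hd => ?_)
      rcases (Nat.Prime.dvd_mul hℓ).1 hd with h | h
      · have : ℓ = 3 := (Nat.prime_dvd_prime_iff_eq hℓ Nat.prime_three).1 h
        subst this
        refine ⟨1, ?_⟩
        have := hm3 r
        omega
      · have : ℓ = p := (Nat.prime_dvd_prime_iff_eq hℓ hp).1 h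
        subst this
        exact ⟨t', ht'⟩
    obtain ⟨x, z, hxz⟩ := gconic1 (α := (m r : ℤ)) (β := -3 * (p : ℤ)) (s := s₁) (t := 3) hmpos
      (by omega) hco
      (by
        have e : (-3 * (p : ℤ)) = -((3 * p : ℕ) : ℤ) := by push_cast; ring
        rw [e, neg_dvd]
        exact hs₁)
      (by
        have e : (3 : ℤ) ^ 2 - (-3 * (p : ℤ)) = 3 * (p + 3) := by ring
        rw [e]
        exact hmp.mul_left 3)
      (fun k hk => by nlinarith [sq_nonneg k])
    refine ⟨x * s r, z * s r, ?_⟩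
    rw [heq]
    push_cast at hxz
    rw [hxz]
    ring

/-- a common prime of the numerators of the members of the list, in a Diophantine way -/
def CP (A : List ℚ) : Prop :=
  ∃ a b : ℚ, Five12 b ∧ Cap3 a b ∧ Con3 a b 1 ∧ ∀ x ∈ A, Con3 a b (x / b)

theorem CP.sound {A : List ℚ} (h : CP A) :
    ∃ q : ℕ, Inert3 q ∧ ∀ x ∈ A, x = 0 ∨ 1 ≤ padicValRat q x := by
  obtain ⟨a, b, hb, hc, h1, hA⟩ := h
  obtain ⟨q, hq, hodd⟩ := exists_inert3_odd hb
  have := Fact.mk hq.1
  refine ⟨q, hq, fun x hx => ?_⟩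
  have hb0 : b ≠ 0 := by
    rintro rfl
    simp at hodd
  have hb1 : 1 ≤ padicValRat q b := by
    have h2 := (capture3_sound hq hodd hc h1).resolve_left one_ne_zero
    rw [one_pow, mul_one] at h2
    rcases hodd with ⟨k, hk⟩
    omega
  by_cases hx0 : x = 0
  · exact Or.inl hx0
  · right
    have h3 := (capture3_sound hq hodd hc (hA x hx)).resolve_left (div_ne_zero hx0 hb0)
    rw [padicValRat.mul hb0 (pow_ne_zero _ (div_ne_zero hx0 hb0)), padicValRat.pow,
      padicValRat.div hx0 hb0] at h3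
    push_cast at h3
    omega

theorem CP.complete {b : ℕ} (hb : b.Prime) (h24 : b % 24 = 17) (A : List ℚ)
    (hA : ∀ x ∈ A, ∃ n : ℤ, x = b * n) : CP A := by
  have hb0 : (b : ℚ) ≠ 0 := by exact_mod_cast hb.ne_zero
  have hA' : ∀ x : ℚ, ∃ n : ℤ, x ∈ A → x = b * n := by
    intro x
    by_cases hx : x ∈ A
    · obtain ⟨n, hn⟩ := hA x hx
      exact ⟨n, fun _ => hn⟩
    · exact ⟨0, fun h => absurd h hx⟩
  choose n hn using hA'
  obtain ⟨a, hcap, hcon⟩ := capture3_complete hb h24 (1 :: A.map n)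
  refine ⟨a, b, ?_, hcap, ?_, fun x hx => ?_⟩
  · obtain ⟨k, hk⟩ : ∃ k : ℤ, (b : ℤ) = 5 + 12 * k := ⟨(b - 5) / 12, by omega⟩
    have hk' : ((b : ℚ) - 5) / 12 = k := by
      have : (b : ℚ) = 5 + 12 * k := by exact_mod_cast hk
      rw [this]; ring
    constructor
    · rw [hk', padicValRat.of_int]
      exact_mod_cast Nat.zero_le _
    · rw [hk', padicValRat.of_int]
      exact_mod_cast Nat.zero_le _
  · have := hcon 1 (by simp)
    simpa using this
  · have h1 := hcon (n x) (by simp; right; exact ⟨x, hx, rfl⟩)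
    have e : x / b = (n x : ℚ) := by
      rw [div_eq_iff hb0, mul_comm]
      exact hn x hx
    rw [e]
    exact h1

end Vale.Agent.P027.T2
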