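import Mathlib
import Vale.Agent.P027.R2.H124.Cap3
import Vale.Agent.P027.R2.H955.Pow

/-! Reading of natural numbers coded by powers of two. -/

namespace Vale.Agent.P027.T2

open Vale.Agent.P027 MvPolynomial Vale.Agent.P027.R2.H955

/-- bound for the values of a polynomial on a box -/
theorem eval_bound {σ : Type} (P : MvPolynomial σ ℤ) : ∃ C d : ℕ, ∀ g : ℕ, 1 ≤ g →
    ∀ v : σ → ℤ, (∀ i, |v i| ≤ g) → |eval v P| ≤ C * g ^ d := by
  induction P using MvPolynomial.induction_on with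
  | C a =>
    refine ⟨a.natAbs, 0, fun g _ v _ => ?_⟩
    simp
  | add p q hp hq =>
    obtain ⟨C₁, d₁, h₁⟩ := hp
    obtain ⟨C₂, d₂, h₂⟩ := hq
    refine ⟨C₁ + C₂, d₁ + d₂, fun g hg v hv => ?_⟩
    rw [map_add]
    have e₁ := h₁ g hg v hv
    have e₂ := h₂ g hg v hv
    have hg' : (1 : ℤ) ≤ g := by exact_mod_cast hg
    have f₁ : (g : ℤ) ^ d₁ ≤ g ^ (d₁ + d₂) := pow_le_pow_right₀ hg' (by omega)
    have f₂ : (g : ℤ) ^ d₂ ≤ g ^ (d₁ + d₂) := pow_le_pow_right₀ hg' (by omega)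
    have i₁ : (C₁ : ℤ) * g ^ d₁ ≤ C₁ * g ^ (d₁ + d₂) := mul_le_mul_of_nonneg_left f₁ (by positivity)
    have i₂ : (C₂ : ℤ) * g ^ d₂ ≤ C₂ * g ^ (d₁ + d₂) := mul_le_mul_of_nonneg_left f₂ (by positivity)
    push_cast
    calc |eval v p + eval v q| ≤ |eval v p| + |eval v q| := abs_add_le _ _
      _ ≤ C₁ * g ^ (d₁ + d₂) + C₂ * g ^ (d₁ + d₂) := by linarith
      _ = _ := by ring
  | mul_X p i hp =>
    obtain ⟨C, d, h⟩ := hp
    refine ⟨C, d + 1, fun g hg v hv => ?_⟩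
    rw [map_mul, eval_X, abs_mul, pow_succ, ← mul_assoc]
    exact mul_le_mul (h g hg v hv) (hv i) (abs_nonneg _) (by positivity)

theorem aeval_intCast {σ A : Type} [CommRing A] (f : σ → ℤ) (P : MvPolynomial σ ℤ) :
    aeval (fun i => ((f i : ℤ) : A)) P = ((eval f P : ℤ) : A) := by
  induction P using MvPolynomial.induction_on with
  | C a => simp
  | add p q hp hq => rw [map_add, map_add, hp, hq]; push_cast; rfl
  | mul_X p i hp => rw [map_mul, map_mul, hp, aeval_X, eval_X]; push_cast; rfl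

/-- geometric sums -/
def gs (g x : ℕ) : ℕ := ∑ i ∈ Finset.range x, (2 ^ g) ^ i

theorem gs_mul (g x : ℕ) : (gs g x : ℤ) * (2 ^ g - 1) = 2 ^ (g * x) - 1 := by
  unfold gs
  push_cast
  rw [geom_sum_mul, ← pow_mul]

theorem gs_rat {g : ℕ} (hg : 1 ≤ g) (x : ℕ) :
    ((2 : ℚ) ^ (g * x) - 1) / (2 ^ g - 1) = (gs g x : ℤ) := by
  have h : (2 : ℚ) ^ g - 1 ≠ 0 := by
    have : (1 : ℚ) < 2 ^ g := one_lt_pow₀ (by norm_num) (by omega)
    linarith
  rw [div_eq_iff h]
  have := gs_mul g x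
  exact_mod_cast this.symm

theorem gs_mod {q g : ℕ} (h : (2 : ZMod q) ^ g = 1) (x : ℕ) : ((gs g x : ℤ) : ZMod q) = (x : ZMod q) := by
  unfold gs
  push_cast
  rw [h]
  simp

/-- the order of two at a prime divisor of a Fermat number -/
theorem order_fermat {q j : ℕ} (hq : q.Prime) (hq2 : q ≠ 2) (h : q ∣ 2 ^ 2 ^ j + 1) :
    orderOf (2 : ZMod q) = 2 ^ (j + 1) := by
  have := Fact.mk hq
  have h1 : (2 : ZMod q) ^ 2 ^ j = -1 := by
    have : ((2 ^ 2 ^ j + 1 : ℕ) : ZMod q) = 0 := (ZMod.natCast_eq_zero_iff _ _).2 h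
    push_cast at this
    linear_combination this
  have hne : (-1 : ZMod q) ≠ 1 := by
    have : Fact (2 < q) := ⟨lt_of_le_of_ne hq.two_le (Ne.symm hq2)⟩
    exact ZMod.neg_one_ne_one
  apply orderOf_eq_prime_pow
  · rw [h1]; exact hne
  · rw [pow_succ, pow_mul, h1]; norm_num

theorem order_lt {q : ℕ} (hq : q.Prime) (hq2 : q ≠ 2) : orderOf (2 : ZMod q) < q := by
  have := Fact.mk hq
  have h0 : (2 : ZMod q) ≠ 0 := by
    intro h
    have : ((2 : ℕ) : ZMod q) = 0 := by exact_mod_cast h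
    rw [ZMod.natCast_eq_zero_iff] at this
    exact hq2 ((Nat.prime_dvd_prime_iff_eq hq Nat.prime_two).1 this)
  have h1 := ZMod.orderOf_dvd_card_sub_one h0
  have := Nat.le_of_dvd (by have := hq.two_le; omega) h1
  have := hq.two_le
  omega

theorem two_pow_cast_eq_one {q n : ℕ} (h : (q : ℤ) ∣ 2 ^ n - 1) : (2 : ZMod q) ^ n = 1 := by
  have := (ZMod.intCast_zmod_eq_zero_iff_dvd (2 ^ n - 1) q).2 h
  push_cast at this
  linear_combination this

/-- membership in the list gives divisibility -/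
theorem dvd_of_val {q : ℕ} (hq : q.Prime) {z : ℤ} (h : (z : ℚ) = 0 ∨ 1 ≤ padicValRat q (z : ℚ)) :
    (q : ℤ) ∣ z := by
  have := Fact.mk hq
  rcases h with h | h
  · have : z = 0 := by exact_mod_cast h
    rw [this]; exact dvd_zero _
  · rw [padicValRat.of_int] at h
    have h1 : padicValInt q z ≠ 0 := by
      intro h0
      rw [h0] at h
      norm_num at h
    by_contra hcon
    apply h1
    rw [padicValInt.eq_zero_iff]
    exact Or.inr (Or.inr hcon)

/-- a prime of the form used by the capture divides a Fermat number -/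
theorem exists_prime_fermat {j : ℕ} (hj : 2 ≤ j) : ∃ b : ℕ, b.Prime ∧ b % 24 = 17 ∧
    b ∣ 2 ^ 2 ^ j + 1 := by
  have key : ∀ n : ℕ, n % 3 = 2 → ∃ p, p.Prime ∧ p % 3 = 2 ∧ p ∣ n := by
    intro n
    induction n using Nat.strong_induction_on with
    | _ n ih =>
      intro hn
      by_cases h1 : n = 1
      · omega
      have hp := Nat.minFac_prime h1
      obtain ⟨m, hm⟩ := Nat.minFac_dvd n
      by_cases h3 : n.minFac % 3 = 2
      · exact ⟨_, hp, h3, Nat.minFac_dvd n⟩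
      · have h4 : n.minFac % 3 ≠ 0 := by
          intro h0
          have : 3 ∣ n := dvd_trans (Nat.dvd_of_mod_eq_zero h0) (Nat.minFac_dvd n)
          omega
        have h5 : n.minFac % 3 = 1 := by omega
        have h6 : m % 3 = 2 := by
          have h7 : n % 3 = (n.minFac % 3) * (m % 3) % 3 := by
            conv_lhs => rw [hm]
            rw [Nat.mul_mod]
          rw [h5, one_mul, Nat.mod_mod] at h7
          omega
        have h7 : m < n := by
          have h8 := hp.two_le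
          have h9 : 0 < m := by
            rcases Nat.eq_zero_or_pos m with h | h
            · subst h; omega
            · exact h
          calc m < 2 * m := by omega
            _ ≤ n.minFac * m := Nat.mul_le_mul_right _ h8
            _ = n := hm.symm
        obtain ⟨p, hp1, hp2, hp3⟩ := ih m h7 h6
        exact ⟨p, hp1, hp2, hp3.trans ⟨n.minFac, by rw [mul_comm]; exact hm⟩⟩
  obtain ⟨i, rfl⟩ : ∃ i, j = i + 1 := ⟨j - 1, by omega⟩
  have h2 : (2 ^ 2 ^ (i + 1) + 1) % 3 = 2 := by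
    have : 2 ^ 2 ^ (i + 1) = 4 ^ 2 ^ i := by
      rw [pow_succ', pow_mul]
      norm_num
    rw [this, Nat.add_mod, Nat.pow_mod]
    norm_num
  obtain ⟨b, hb, hb3, hbd⟩ := key _ h2
  refine ⟨b, hb, ?_, hbd⟩
  have hb2 : b ≠ 2 := by
    rintro rfl
    have h3 : (2 ^ 2 ^ (i + 1) + 1) % 2 = 1 := by
      have : 2 ^ 2 ^ (i + 1) = 2 * 2 ^ (2 ^ (i + 1) - 1) := by
        rw [← pow_succ']
        congr 1
        have : 0 < 2 ^ (i + 1) := by positivity
        omega
      omega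
    omega
  have := Fact.mk hb
  have h0 : (2 : ZMod b) ≠ 0 := by
    intro h
    have : ((2 : ℕ) : ZMod b) = 0 := by exact_mod_cast h
    rw [ZMod.natCast_eq_zero_iff] at this
    exact hb2 ((Nat.prime_dvd_prime_iff_eq hb Nat.prime_two).1 this)
  have h1 := ZMod.orderOf_dvd_card_sub_one h0
  rw [order_fermat hb hb2 hbd] at h1
  have h8 : 8 ∣ b - 1 := by
    refine dvd_trans ?_ h1
    rw [show (8 : ℕ) = 2 ^ 3 by norm_num]
    exact pow_dvd_pow 2 (by omega)
  have := hb.two_le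
  omega

/-- product certificate -/
def ProdC (x y z : ℚ) : Prop := Sum2 (((z / x) ^ 2 - 1) / ((y / 2) ^ 2 - 1))

/-- the entries of the common prime predicate -/
noncomputable def ents {k n : ℕ} (P : MvPolynomial (Fin k ⊕ Fin n) ℤ) (κ : ℕ) (a : Fin k → ℚ) (u : ℕ → ℚ)
    (H : ℚ) : List ℚ :=
  [H + 1, (u (κ + 1) - 1) / (u κ - 1) - u (κ + 3),
    aeval (Sum.elim a (fun j : Fin n => (u (κ + 4 + j) - 1) / (u κ - 1))) P] ++
  (List.range n).map (fun j => u (κ + 4 + j) - 1)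

/-- the reading formula -/
def Read {k n : ℕ} (P : MvPolynomial (Fin k ⊕ Fin n) ℤ) (κ c₀ : ℕ) (a : Fin k → ℚ)
    (u : ℕ → ℚ) : Prop :=
  (2 : ℚ) ^ c₀ ≤ u 0 ∧
  (∀ j < κ + 3, 1 < u j ∧ Sum2 ((u j - 1) / 3)) ∧
  (∀ j < κ + 1, u j < u (j + 1) ∧ ProdC (u j) (u j) (u (j + 1))) ∧
  (u κ < u (κ + 2) ∧ ProdC (u κ) (u 0) (u (κ + 2))) ∧
  (1 ≤ u (κ + 3) ∧ u (κ + 3) < u κ) ∧
  (∀ i, ((a i) ^ 2) ^ (2 ^ κ) ≤ (u (κ + 3)) ^ 2) ∧
  (∀ j < n, 1 ≤ u (κ + 4 + j) ∧ u (κ + 4 + j) < u (κ + 2)) ∧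
  ∃ H : ℚ, 0 < H ∧ H ^ 2 = u κ ∧ CP (ents P κ a u H)

theorem two_pow_lt {m n : ℕ} : (2 : ℚ) ^ m < 2 ^ n ↔ m < n :=
  pow_lt_pow_iff_right₀ (by norm_num)

theorem two_pow_le {m n : ℕ} : (2 : ℚ) ^ m ≤ 2 ^ n ↔ m ≤ n :=
  pow_le_pow_iff_right₀ (by norm_num)

theorem read_sound {k n : ℕ} (P : MvPolynomial (Fin k ⊕ Fin n) ℤ) {C d : ℕ}
    (hCd : ∀ g : ℕ, 1 ≤ g → ∀ v : Fin k ⊕ Fin n → ℤ, (∀ i, |v i| ≤ g) → |eval v P| ≤ C * g ^ d)
    (a : Fin k → ℤ) (e : ℕ → ℕ)
    (h : Read P d (C + 1) (fun i => (a i : ℚ)) (fun i => (2 : ℚ) ^ e i)) :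
    ∃ x : Fin n → ℕ, eval (Sum.elim a (fun j => (x j : ℤ))) P = 0 := by
  obtain ⟨h0, hpow, hchain, ⟨hB1, hB2⟩, ⟨hS1, hS2⟩, ha, hY, H, hH0, hH, hCP⟩ := h
  dsimp only at h0 hpow hchain hB1 hB2 hS1 hS2 ha hY hH
  -- exponents are powers of two
  have hw : ∀ j, ∃ w, j < d + 3 → 1 ≤ w ∧ e j = 2 ^ w := by
    intro j
    by_cases hj : j < d + 3
    · obtain ⟨h1, h2⟩ := hpow j hj
      have he : 1 ≤ e j := by
        by_contra hcon
        have : e j = 0 := by omega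
        rw [this] at h1
        norm_num at h1
      obtain ⟨w, hw⟩ := (pow_iff (e j) he).1 h2
      exact ⟨w, fun _ => hw⟩
    · exact ⟨0, fun h => absurd h hj⟩
  choose w hw using hw
  have hlt : ∀ {i j : ℕ}, i < d + 3 → j < d + 3 → (2 : ℚ) ^ e i < 2 ^ e j →
      ∃ t, 1 ≤ t ∧ w j = w i + t := by
    intro i j hi hj h
    rw [two_pow_lt, (hw i hi).2, (hw j hj).2, Nat.pow_lt_pow_iff_right (by norm_num)] at h
    exact ⟨w j - w i, by omega, by omega⟩
  have hstep : ∀ j < d + 1, w (j + 1) = 2 * w j := by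
    intro j hj
    obtain ⟨h1, h2⟩ := hchain j hj
    obtain ⟨t, ht1, ht⟩ := hlt (i := j) (j := j + 1) (by omega) (by omega) h1
    unfold ProdC at h2
    rw [(hw (j + 1) (by omega)).2, (hw j (by omega)).2, ht] at h2
    have := (prod_iff (w j) (w j) t (hw j (by omega)).1 (hw j (by omega)).1 ht1).1 h2
    omega
  have hwj : ∀ j ≤ d + 1, w j = 2 ^ j * w 0 := by
    intro j
    induction j with
    | zero => intro _; simp
    | succ j ih =>
      intro hj
      rw [hstep j (by omega), ih (by omega), pow_succ]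
      ring
  have hwB : w (d + 2) = w d + w 0 := by
    obtain ⟨t, ht1, ht⟩ := hlt (i := d) (j := d + 2) (by omega) (by omega) hB1
    unfold ProdC at hB2
    rw [(hw (d + 2) (by omega)).2, (hw d (by omega)).2, (hw 0 (by omega)).2, ht] at hB2
    have := (prod_iff (w d) (w 0) t (hw d (by omega)).1 (hw 0 (by omega)).1 ht1).1 hB2
    omega
  obtain ⟨γ, hγ⟩ : ∃ γ : ℕ, γ = e 0 := ⟨_, rfl⟩
  obtain ⟨g, hg⟩ : ∃ g : ℕ, g = e d := ⟨_, rfl⟩
  have hw0 := (hw 0 (by omega)).1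
  have hγ2 : γ = 2 ^ w 0 := by rw [hγ]; exact (hw 0 (by omega)).2
  have hg2 : g = 2 ^ w d := by rw [hg]; exact (hw d (by omega)).2
  have hgγ : g = γ ^ (2 ^ d) := by
    rw [hg2, hγ2, hwj d (by omega), ← pow_mul]
    ring_nf
  have hg' : e (d + 1) = g * g := by
    rw [(hw (d + 1) (by omega)).2, hstep d (by omega), hg2, ← pow_add]
    ring_nf
  have hB : e (d + 2) = g * γ := by
    rw [(hw (d + 2) (by omega)).2, hwB, hg2, hγ2, ← pow_add]
  have hγC : C + 1 ≤ γ := by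
    rw [two_pow_le] at h0
    rw [hγ]; exact h0
  -- the half exponent
  have hwd : 1 ≤ w d := (hw d (by omega)).1
  obtain ⟨j, hj⟩ : ∃ j, w d = j + 1 := ⟨w d - 1, by omega⟩
  have hHval : H = 2 ^ 2 ^ j := by
    have h1 : H ^ 2 = (2 ^ 2 ^ j) ^ 2 := by
      rw [hH, ← hg, hg2, hj, ← pow_mul, pow_succ]
    exact (pow_left_inj₀ hH0.le (by positivity) (by norm_num)).1 h1
  -- the captured prime
  obtain ⟨q, hq, hall⟩ := hCP.sound
  have hqp := hq.1
  have := Fact.mk hqp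
  have hq2 : q ≠ 2 := by
    have := hq.2
    omega
  have hmem : ∀ x, x ∈ ents P d (fun i => (a i : ℚ)) (fun i => (2 : ℚ) ^ e i) H →
      x = 0 ∨ 1 ≤ padicValRat q x := hall
  have hF : q ∣ 2 ^ 2 ^ j + 1 := by
    have h1 := hmem (H + 1) (by simp [ents])
    have h2 : H + 1 = (((2 ^ 2 ^ j + 1 : ℕ) : ℤ) : ℚ) := by rw [hHval]; push_cast; ring
    rw [h2] at h1
    exact_mod_cast dvd_of_val hqp h1
  have hord : orderOf (2 : ZMod q) = g := by
    rw [order_fermat hqp hq2 hF, hg2, hj]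
  have hgq : g < q := by rw [← hord]; exact order_lt hqp hq2
  have hpow1 : (2 : ZMod q) ^ g = 1 := by rw [← hord]; exact pow_orderOf_eq_one _
  have hgpos : 1 ≤ g := by rw [hg2]; exact Nat.one_le_two_pow
  -- coded numbers
  have hx : ∀ j : Fin n, ∃ x : ℕ, e (d + 4 + j) = g * x ∧ x < γ := by
    intro i
    have h1 := hmem ((2 : ℚ) ^ e (d + 4 + i) - 1) (by
      simp only [ents, List.mem_append, List.mem_map, List.mem_range]
      exact Or.inr ⟨i, i.2, rfl⟩)
    have h2 : (2 : ℚ) ^ e (d + 4 + i) - 1 = ((2 ^ e (d + 4 + i) - 1 : ℤ) : ℚ) := by push_cast; ring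
    rw [h2] at h1
    have h3 := two_pow_cast_eq_one (dvd_of_val hqp h1)
    have h4 := orderOf_dvd_of_pow_eq_one h3
    rw [hord] at h4
    obtain ⟨x, hx⟩ := h4
    refine ⟨x, hx, ?_⟩
    have h5 := (hY i i.2).2
    rw [two_pow_lt, hB, hx] at h5
    exact lt_of_mul_lt_mul_left h5 (Nat.zero_le _)
  choose x hx hxγ using hx
  -- the number `g`
  have hS : e (d + 3) = w d := by
    have h1 := hmem (((2 : ℚ) ^ e (d + 1) - 1) / (2 ^ e d - 1) - 2 ^ e (d + 3)) (by simp [ents])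
    rw [hg', ← hg, gs_rat hgpos g] at h1
    have h2 : (((gs g g : ℤ) : ℚ) - 2 ^ e (d + 3)) = (((gs g g : ℤ) - 2 ^ e (d + 3) : ℤ) : ℚ) := by
      push_cast; ring
    rw [h2] at h1
    have h3 := (ZMod.intCast_zmod_eq_zero_iff_dvd _ q).2 (dvd_of_val hqp h1)
    rw [Int.cast_sub, gs_mod hpow1] at h3
    have h4 : (2 : ZMod q) ^ e (d + 3) = 2 ^ w d := by
      push_cast at h3
      rw [hg2] at h3
      push_cast at h3
      linear_combination -h3
    have h5 : e (d + 3) < g := by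
      rw [two_pow_lt, ← hg] at hS2
      exact hS2
    have h6 : w d < g := by rw [hg2]; exact Nat.lt_two_pow_self
    rw [← hord] at h5 h6
    exact pow_injOn_Iio_orderOf h5 h6 h4
  have haγ : ∀ i, |a i| ≤ γ := by
    intro i
    have h1 := ha i
    rw [hS] at h1
    have h2 : ((2 : ℚ) ^ w d) ^ 2 = ((γ : ℚ) ^ 2) ^ 2 ^ d := by
      have : ((2 : ℚ) ^ w d) = (γ : ℚ) ^ 2 ^ d := by
        have h3 : ((g : ℕ) : ℚ) = (γ : ℚ) ^ 2 ^ d := by rw [hgγ]; push_cast; ring
        rw [← h3, hg2]; push_cast; ring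
      rw [this, ← pow_mul, ← pow_mul, mul_comm]
    rw [h2] at h1
    have h4 : (a i : ℚ) ^ 2 ≤ (γ : ℚ) ^ 2 :=
      (pow_le_pow_iff_left₀ (by positivity) (by positivity) (by positivity)).1 h1
    have h5 : |(a i : ℚ)| ≤ (γ : ℚ) := abs_le_of_sq_le_sq h4 (by positivity)
    have h6 : ((|a i| : ℤ) : ℚ) ≤ ((γ : ℤ) : ℚ) := by push_cast; exact h5
    exact_mod_cast h6
  -- conclusion
  refine ⟨x, ?_⟩
  obtain ⟨z, hz⟩ : ∃ z : ℤ, z = eval (Sum.elim a (fun j => (gs g (x j) : ℤ))) P := ⟨_, rfl⟩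
  have hzq : (q : ℤ) ∣ z := by
    have h1 := hmem (aeval (Sum.elim (fun i => (a i : ℚ))
      (fun j : Fin n => ((2 : ℚ) ^ e (d + 4 + j) - 1) / (2 ^ e d - 1))) P) (by simp [ents])
    have h2 : (aeval (Sum.elim (fun i => (a i : ℚ))
      (fun j : Fin n => ((2 : ℚ) ^ e (d + 4 + j) - 1) / (2 ^ e d - 1))) P) = ((z : ℤ) : ℚ) := by
      have h3 : (Sum.elim (fun i => (a i : ℚ))
        (fun j : Fin n => ((2 : ℚ) ^ e (d + 4 + j) - 1) / (2 ^ e d - 1))) =
          fun i => (((Sum.elim a (fun j => (gs g (x j) : ℤ)) i : ℤ)) : ℚ) := by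
        funext i
        rcases i with i | i
        · rfl
        · simp only [Sum.elim_inr]
          rw [hx i, ← hg, gs_rat hgpos]
      rw [h3, aeval_intCast, hz]
    rw [h2] at h1
    exact dvd_of_val hqp h1
  have hcong : (q : ℤ) ∣ eval (Sum.elim a (fun j => (x j : ℤ))) P := by
    rw [← ZMod.intCast_zmod_eq_zero_iff_dvd] at hzq ⊢
    rw [← hzq, hz, ← aeval_intCast, ← aeval_intCast]
    refine congrArg (fun f => aeval f P) ?_
    funext i
    rcases i with i | i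
    · rfl
    · simp only [Sum.elim_inr]
      rw [gs_mod hpow1]
      push_cast
      rfl
  have hγpos : 1 ≤ γ := by omega
  have hb := hCd γ hγpos (Sum.elim a (fun j => (x j : ℤ))) (by
    intro i
    rcases i with i | i
    · exact haγ i
    · simp only [Sum.elim_inr]
      rw [abs_of_nonneg (by positivity)]
      exact_mod_cast (hxγ i).le)
  have hlt2 : C * γ ^ d < g := by
    calc C * γ ^ d < γ * γ ^ d := Nat.mul_lt_mul_of_pos_right (by omega) (by positivity)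
      _ = γ ^ (d + 1) := by rw [pow_succ, mul_comm]
      _ ≤ γ ^ (2 ^ d) := Nat.pow_le_pow_right hγpos (Nat.lt_two_pow_self)
      _ = g := hgγ.symm
  apply Int.eq_zero_of_abs_lt_dvd hcong
  calc |eval (Sum.elim a (fun j => (x j : ℤ))) P| ≤ C * γ ^ d := hb
    _ < g := by exact_mod_cast hlt2
    _ < q := by exact_mod_cast hgq

/-- the exponents used in the completeness proof -/
def expo (w d : ℕ) (x : ℕ → ℕ) : ℕ → ℕ := fun i =>
  if i < d + 2 then 2 ^ (2 ^ i * w) else if i = d + 2 then 2 ^ (2 ^ d * w + w)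
  else if i = d + 3 then 2 ^ d * w else 2 ^ (2 ^ d * w) * x (i - (d + 4))

theorem read_complete {k n : ℕ} (P : MvPolynomial (Fin k ⊕ Fin n) ℤ) (d c₀ : ℕ)
    (a : Fin k → ℤ) (x : Fin n → ℕ) (hP : eval (Sum.elim a (fun j => (x j : ℤ))) P = 0) :
    ∃ e : ℕ → ℕ, Read P d c₀ (fun i => (a i : ℚ)) (fun i => (2 : ℚ) ^ e i) := by
  obtain ⟨w, hw⟩ : ∃ w : ℕ, w = c₀ + 3 + ∑ j, x j + ∑ i, (a i).natAbs := ⟨_, rfl⟩
  obtain ⟨y, hy⟩ : ∃ y : ℕ → ℕ, ∀ j : Fin n, y j = x j :=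
    ⟨fun j => if h : j < n then x ⟨j, h⟩ else 0, fun j => by simp⟩
  have hw2 : w < 2 ^ w := Nat.lt_two_pow_self
  have hxw : ∀ j, x j < 2 ^ w := by
    intro j
    have := Finset.single_le_sum (f := x) (fun i _ => Nat.zero_le _) (Finset.mem_univ j)
    omega
  have haw : ∀ i, |a i| ≤ ((2 ^ w : ℕ) : ℤ) := by
    intro i
    have := Finset.single_le_sum (f := fun i => (a i).natAbs) (fun i _ => Nat.zero_le _)
      (Finset.mem_univ i)
    beta_reduce at this
    have h2 : ((a i).natAbs : ℤ) ≤ ((2 ^ w : ℕ) : ℤ) := by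
      exact_mod_cast (by omega : (a i).natAbs ≤ 2 ^ w)
    rwa [Int.natCast_natAbs] at h2
  obtain ⟨W, hW⟩ : ∃ W : ℕ, W = 2 ^ d * w := ⟨_, rfl⟩
  have hWw : w ≤ W := by
    rw [hW]; exact Nat.le_mul_of_pos_left _ (by positivity)
  obtain ⟨g, hg⟩ : ∃ g : ℕ, g = 2 ^ W := ⟨_, rfl⟩
  have hgpos : 1 ≤ g := by rw [hg]; exact Nat.one_le_two_pow
  have hWg : W < g := by rw [hg]; exact Nat.lt_two_pow_self
  obtain ⟨e, he⟩ : ∃ e, e = expo w d y := ⟨_, rfl⟩
  have e1 : ∀ i < d + 2, e i = 2 ^ (2 ^ i * w) := by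
    intro i hi; rw [he]; simp [expo, hi]
  have ed : e d = g := by rw [e1 d (by omega), hg, hW]
  have ed1 : e (d + 1) = g * g := by
    rw [e1 (d + 1) (by omega), hg, hW, ← pow_add]
    congr 1
    ring
  have e2 : e (d + 2) = 2 ^ (W + w) := by
    rw [he, hW]
    simp [expo]
  have e3 : e (d + 3) = W := by
    rw [he, hW]
    simp [expo]
  have e4 : ∀ j : Fin n, e (d + 4 + j) = g * x j := by
    intro j
    rw [he, ← hy j, hg, hW]
    unfold expo
    rw [if_neg (by omega), if_neg (by omega), if_neg (by omega)]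
    congr 2
    omega
  obtain ⟨j, hj⟩ : ∃ j, W = j + 1 := ⟨W - 1, by omega⟩
  have hj2 : 2 ≤ j := by omega
  obtain ⟨b, hb, hb24, hbF⟩ := exists_prime_fermat hj2
  have hb2 : b ≠ 2 := by
    rintro rfl; omega
  have := Fact.mk hb
  have hord : orderOf (2 : ZMod b) = g := by
    rw [order_fermat hb hb2 hbF, hg, hj]
  have hpow1 : (2 : ZMod b) ^ g = 1 := by rw [← hord]; exact pow_orderOf_eq_one _
  refine ⟨e, ?_⟩
  refine ⟨?_, ?_, ?_, ⟨?_, ?_⟩, ⟨?_, ?_⟩, ?_, ?_, 2 ^ 2 ^ j, by positivity, ?_, ?_⟩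
  · simp only [e1 0 (by omega)]
    rw [two_pow_le]
    rw [pow_zero, one_mul]
    omega
  · intro i hi
    simp only
    have key : ∃ t, 1 ≤ t ∧ e i = 2 ^ t := by
      by_cases h : i < d + 2
      · refine ⟨2 ^ i * w, ?_, e1 i h⟩
        exact Nat.mul_pos (by positivity) (by omega)
      · have : i = d + 2 := by omega
        subst this
        exact ⟨W + w, by omega, e2⟩
    obtain ⟨t, ht, het⟩ := key
    have h1 : 1 ≤ e i := by rw [het]; exact Nat.one_le_two_pow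
    refine ⟨one_lt_pow₀ (by norm_num) (by omega), ?_⟩
    exact (pow_iff (e i) h1).2 ⟨t, ht, het⟩
  · intro i hi
    simp only
    have h1 : 1 ≤ 2 ^ i * w := Nat.mul_pos (by positivity) (by omega)
    have h2 : 2 ^ (i + 1) * w = 2 ^ i * w + 2 ^ i * w := by ring
    rw [e1 i (by omega), e1 (i + 1) (by omega), h2]
    refine ⟨?_, ?_⟩
    · rw [two_pow_lt, Nat.pow_lt_pow_iff_right (by norm_num)]
      omega
    · unfold ProdC
      exact (prod_iff (2 ^ i * w) (2 ^ i * w) (2 ^ i * w) h1 h1 h1).2 rfl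
  · simp only
    rw [two_pow_lt, ed, e2, hg, Nat.pow_lt_pow_iff_right (by norm_num)]
    omega
  · simp only
    unfold ProdC
    rw [ed, e2, hg, e1 0 (by omega), pow_zero, one_mul]
    exact (prod_iff W w w (by omega) (by omega) (by omega)).2 rfl
  · simp only
    exact one_le_pow₀ (by norm_num)
  · simp only
    rw [two_pow_lt, e3, ed]
    exact hWg
  · intro i
    simp only
    have h1 : ((2 : ℚ) ^ e (d + 3)) ^ 2 = (((2 : ℚ) ^ w) ^ 2) ^ 2 ^ d := by
      rw [e3, hW, ← pow_mul, ← pow_mul, ← pow_mul]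
      congr 1
      ring
    rw [h1]
    refine pow_le_pow_left₀ (by positivity) ?_ _
    rw [← sq_abs ((a i : ℚ))]
    refine pow_le_pow_left₀ (by positivity) ?_ _
    have h2 : ((|a i| : ℤ) : ℚ) ≤ ((((2 ^ w : ℕ) : ℤ)) : ℚ) := by exact_mod_cast haw i
    push_cast at h2
    exact h2
  · intro i hi
    simp only
    refine ⟨one_le_pow₀ (by norm_num), ?_⟩
    have h1 := e4 ⟨i, hi⟩
    simp only at h1
    rw [two_pow_lt, h1, e2, pow_add, ← hg]
    exact Nat.mul_lt_mul_of_pos_left (hxw _) (by omega)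
  · simp only
    rw [ed, hg, hj, ← pow_mul, pow_succ]
  · apply CP.complete hb hb24
    intro z hz
    have hdiv : ∀ y : ℤ, (b : ℤ) ∣ y → ∃ m : ℤ, (y : ℚ) = b * m := by
      rintro y ⟨m, rfl⟩
      exact ⟨m, by push_cast; ring⟩
    simp only [ents, List.mem_append, List.mem_map, List.mem_range, List.mem_cons,
      List.not_mem_nil, or_false] at hz
    rcases hz with (hz | hz | hz) | ⟨i, hi, hz⟩
    · rw [hz]
      have h1 : (b : ℤ) ∣ ((2 ^ 2 ^ j + 1 : ℕ) : ℤ) := Int.natCast_dvd_natCast.2 hbF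
      obtain ⟨m, hm⟩ := hdiv _ h1
      refine ⟨m, ?_⟩
      rw [← hm]
      push_cast
      ring
    · rw [hz, ed1, ed, e3, gs_rat hgpos g]
      have h1 : (b : ℤ) ∣ (gs g g : ℤ) - 2 ^ W := by
        rw [← ZMod.intCast_zmod_eq_zero_iff_dvd, Int.cast_sub, gs_mod hpow1, hg]
        push_cast
        ring
      obtain ⟨m, hm⟩ := hdiv _ h1
      refine ⟨m, ?_⟩
      rw [← hm]
      push_cast
      ring
    · rw [hz]
      have h3 : (Sum.elim (fun i => (a i : ℚ))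
        (fun j : Fin n => ((2 : ℚ) ^ e (d + 4 + j) - 1) / (2 ^ e d - 1))) =
          fun i => (((Sum.elim a (fun j => (gs g (x j) : ℤ)) i : ℤ)) : ℚ) := by
        funext i
        rcases i with i | i
        · rfl
        · simp only [Sum.elim_inr]
          rw [e4 i, ed, gs_rat hgpos]
      rw [h3, aeval_intCast]
      apply hdiv
      rw [← ZMod.intCast_zmod_eq_zero_iff_dvd, ← aeval_intCast]
      have h4 : ((eval (Sum.elim a (fun j => (x j : ℤ))) P : ℤ) : ZMod b) = 0 := by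
        rw [hP]; simp
      rw [← h4, ← aeval_intCast]
      refine congrArg (fun f => aeval f P) ?_
      funext i
      rcases i with i | i
      · rfl
      · simp only [Sum.elim_inr]
        rw [gs_mod hpow1]
        push_cast
        rfl
    · rw [← hz]
      have h1 := e4 ⟨i, hi⟩
      simp only at h1
      rw [h1]
      have h2 : (b : ℤ) ∣ 2 ^ (g * x ⟨i, hi⟩) - 1 := by
        rw [← ZMod.intCast_zmod_eq_zero_iff_dvd]
        push_cast
        rw [pow_mul, hpow1, one_pow, sub_self]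
      obtain ⟨m, hm⟩ := hdiv _ h2
      refine ⟨m, ?_⟩
      rw [← hm]
      push_cast
      ring

end Vale.Agent.P027.T2
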