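import Mathlib
import Vale.Agent.P027.R2.H124.Read
import Vale.Agent.P027.R2.H250.Cap7
import Vale.Agent.P027.R2.H250.PrimeV
import Vale.Agent.P027.R2.H18.LucasMod
import Vale.Agent.P027.R2.H955.Lucas

/-! Reading of integers coded by points of the norm one torus of the field of `√-7`. -/

namespace Vale.Agent.P027.T2

open Vale.Agent.P027 MvPolynomial

/-- a sign -/
def Sg (s : ℚ) : Prop := s = 1 ∨ s = -1

lemma Sg.sq {s : ℚ} (h : Sg s) : s ^ 2 = 1 := by rcases h with rfl | rfl <;> norm_num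

lemma Sg.ne {s : ℚ} (h : Sg s) : s ≠ 0 := by rcases h with rfl | rfl <;> norm_num

lemma Sg.val {s : ℚ} (h : Sg s) : padicValRat 2 s = 0 := by
  rcases h with rfl | rfl
  · simp
  · rw [padicValRat.neg]; simp

/-! Norms from the field of the square root of two. -/

lemma N2.mul {x y : ℚ} (hx : N2 x) (hy : N2 y) : N2 (x * y) := by
  obtain ⟨a, b, rfl⟩ := hx
  obtain ⟨c, d, rfl⟩ := hy
  exact ⟨a * c + 2 * b * d, a * d + b * c, by ring⟩

/-- units for the norm condition -/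
def N2u (c : ℚ) : Prop := c ≠ 0 ∧ N2 c ∧ N2 c⁻¹

lemma N2u.mul {c d : ℚ} (hc : N2u c) (hd : N2u d) : N2u (c * d) :=
  ⟨mul_ne_zero hc.1 hd.1, hc.2.1.mul hd.2.1, by rw [mul_inv]; exact hc.2.2.mul hd.2.2⟩

lemma N2u.inv {c : ℚ} (hc : N2u c) : N2u c⁻¹ :=
  ⟨inv_ne_zero hc.1, hc.2.2, by rw [inv_inv]; exact hc.2.1⟩

lemma N2u_one : N2u 1 := ⟨one_ne_zero, ⟨1, 0, by norm_num⟩, ⟨1, 0, by norm_num⟩⟩

lemma N2u_two : N2u 2 := ⟨two_ne_zero, ⟨2, 1, by norm_num⟩, ⟨1, 1 / 2, by norm_num⟩⟩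

lemma N2u_pow (t : ℕ) : N2u (2 ^ t) := by
  induction t with
  | zero => simpa using N2u_one
  | succ t ih => rw [pow_succ]; exact ih.mul N2u_two

lemma N2u_sg {s : ℚ} (h : Sg s) : N2u s := by
  rcases h with rfl | rfl
  · exact N2u_one
  · exact ⟨by norm_num, ⟨1, 1, by norm_num⟩, ⟨1, 1, by norm_num⟩⟩

lemma N2u.iff {c : ℚ} (hc : N2u c) (x : ℚ) : N2 (x * c) ↔ N2 x := by
  constructor
  · intro h
    have := h.mul hc.2.2
    rwa [mul_assoc, mul_inv_cancel₀ hc.1, mul_one] at this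
  · intro h; exact h.mul hc.2.1

/-! Points. -/

def sqx (x y : ℚ) : ℚ := x ^ 2 - 7 * y ^ 2
def sqy (x y : ℚ) : ℚ := 2 * x * y

lemma sqx_ax {s s' : ℚ} (hs : Sg s) (hs' : Sg s') (n : ℕ) :
    sqx (s * ax n) (s' * ay n) = ax (2 * n) := by
  rw [two_mul, ax_add]
  unfold sqx
  linear_combination (ax n) ^ 2 * hs.sq - 7 * (ay n) ^ 2 * hs'.sq

lemma sqy_ax (s s' : ℚ) (n : ℕ) : sqy (s * ax n) (s' * ay n) = (s * s') * ay (2 * n) := by
  rw [two_mul, ay_add]
  unfold sqy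
  ring

/-- the second coordinate of the square of a quotient -/
def dy (x₃ y₃ x₁ y₁ : ℚ) : ℚ := 2 * (x₃ * x₁ + 7 * y₃ * y₁) * (y₃ * x₁ - x₃ * y₁)

lemma dy_val {s s' : ℚ} (hs : Sg s) (hs' : Sg s') (e t : ℕ) :
    dy (s' * ax (e + t)) (s' * ay (e + t)) (s * ax e) (s * ay e) = ay (2 * t) := by
  rw [two_mul t, ay_add t t, ax_add, ay_add]
  unfold dy
  have h := ax_ay_norm e
  have h1 := hs.sq
  have h2 := hs'.sq
  have e1 : s' * (ax e * ax t - 7 * (ay e * ay t)) * (s * ax e) +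
      7 * (s' * (ax e * ay t + ay e * ax t)) * (s * ay e) = s' * s * ax t := by
    linear_combination s' * s * ax t * h
  have e2 : s' * (ax e * ay t + ay e * ax t) * (s * ax e) -
      s' * (ax e * ax t - 7 * (ay e * ay t)) * (s * ay e) = s' * s * ay t := by
    linear_combination s' * s * ay t * h
  rw [e1, e2]
  linear_combination 2 * ax t * ay t * s ^ 2 * h2 + 2 * ax t * ay t * h1

/-- oriented point with exponent `e` -/
def Pt (x y : ℚ) (e : ℕ) : Prop := ∃ s, Sg s ∧ x = s * ax e ∧ y = s * ay e ∧ 1 ≤ e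

def Ori (x y : ℚ) : Prop := 0 ≤ padicValRat 2 ((y / x - 1) / 4)

lemma UV_mod4 (n : ℕ) : U (2 * (n + 1)) % 4 = 1 ∧ V (2 * (n + 1)) % 4 = 1 := by
  constructor
  · have key : ∀ m : ℕ, U (2 * m + 1 + 1) % 4 = 1 ∧ Odd (U (2 * m + 1)) := by
      intro m
      refine ⟨?_, U_odd (by omega)⟩
      induction m with
      | zero => norm_num [U]
      | succ m ih =>
        have h1 := U_rec (2 * m + 1 + 1)
        have h2 := U_rec (2 * m + 1)
        have h3 : Odd (U (2 * m + 1)) := U_odd (by omega)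
        have h4 : Odd (U (2 * m + 1 + 1)) := U_odd (by omega)
        have e : 2 * (m + 1) + 1 + 1 = 2 * m + 1 + 1 + 2 := by ring
        have e' : 2 * m + 1 + 1 + 1 = 2 * m + 1 + 2 := by ring
        rw [e, h1, e', h2]
        obtain ⟨a, ha⟩ := h3
        obtain ⟨b, hb⟩ := h4
        omega
    exact (key n).1
  · rw [V_two_mul]
    obtain ⟨a, ha⟩ := V_odd (n := n + 1) (by omega)
    have h1 : V (n + 1) ^ 2 = 4 * (a ^ 2 + a) + 1 := by rw [ha]; ring
    have h2 : (2 : ℤ) * 2 ^ (n + 1) = 4 * 2 ^ n := by ring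
    rw [h1, h2]
    omega

lemma val_int_div {m z : ℤ} (hz : Odd z) (h : 4 ∣ m) :
    0 ≤ padicValRat 2 (((m : ℚ) / z) / 4) := by
  obtain ⟨k, rfl⟩ := h
  have hz0 : (z : ℚ) ≠ 0 := by
    have : z ≠ 0 := by rintro rfl; simp at hz
    exact_mod_cast this
  by_cases hk : k = 0
  · subst hk; simp
  have hk0 : (k : ℚ) ≠ 0 := by exact_mod_cast hk
  have e : (((4 * k : ℤ) : ℚ) / z) / 4 = (k : ℚ) / z := by
    push_cast
    field_simp
  rw [e, padicValRat.div hk0 hz0, val_odd hz, sub_zero, padicValRat.of_int]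
  exact_mod_cast Nat.zero_le _

lemma ori_ax {s : ℚ} (hs : Sg s) {n : ℕ} (hn : 1 ≤ n) : Ori (s * ax n) (s * ay n) := by
  obtain ⟨m, rfl⟩ : ∃ m, n = m + 1 := ⟨n - 1, by omega⟩
  unfold Ori
  have hV : Odd (V (2 * (m + 1))) := V_odd (by omega)
  have hV0 : (V (2 * (m + 1)) : ℚ) ≠ 0 := by exact_mod_cast V_ne_zero (by omega)
  have h := UV_mod4 m
  have e : (s * ay (m + 1)) / (s * ax (m + 1)) - 1 =
      ((U (2 * (m + 1)) - V (2 * (m + 1)) : ℤ) : ℚ) / V (2 * (m + 1)) := by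
    rw [mul_div_mul_left _ _ hs.ne]
    unfold ax ay
    have h2 : (2 : ℚ) ^ (m + 1 + 1) ≠ 0 := by positivity
    push_cast
    field_simp
  rw [e]
  exact val_int_div hV (by omega)

lemma not_ori_neg {s : ℚ} (hs : Sg s) {n : ℕ} (hn : 1 ≤ n) : ¬ Ori (s * ax n) (-s * ay n) := by
  obtain ⟨m, rfl⟩ : ∃ m, n = m + 1 := ⟨n - 1, by omega⟩
  unfold Ori
  have hV : Odd (V (2 * (m + 1))) := V_odd (by omega)
  have hV0 : (V (2 * (m + 1)) : ℚ) ≠ 0 := by exact_mod_cast V_ne_zero (by omega)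
  have h := UV_mod4 m
  obtain ⟨k, hk⟩ : ∃ k : ℤ, U (2 * (m + 1)) + V (2 * (m + 1)) = 2 * k ∧ Odd k := by
    refine ⟨(U (2 * (m + 1)) + V (2 * (m + 1))) / 2, by omega, ?_⟩
    rw [Int.odd_iff]; omega
  have hk0 : (k : ℚ) ≠ 0 := by
    have : k ≠ 0 := by
      rintro rfl
      simp at hk
    exact_mod_cast this
  have e : ((-s * ay (m + 1)) / (s * ax (m + 1)) - 1) / 4 = -((k : ℚ) / V (2 * (m + 1)) / 2) := by
    have h1 : (-s * ay (m + 1)) / (s * ax (m + 1)) = -(U (2 * (m + 1)) / V (2 * (m + 1)) : ℚ) := by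
      rw [neg_mul, neg_div, mul_div_mul_left _ _ hs.ne]
      unfold ax ay
      have h2 : (2 : ℚ) ^ (m + 1 + 1) ≠ 0 := by positivity
      field_simp
    have h3 : ((U (2 * (m + 1)) : ℚ)) = 2 * k - V (2 * (m + 1)) := by
      have : U (2 * (m + 1)) = 2 * k - V (2 * (m + 1)) := by linarith [hk.1]
      rw [this]; push_cast; ring
    rw [h1, h3]
    field_simp
    ring
  have h22 : padicValRat 2 (2 : ℚ) = 1 := by
    have := padicValRat.self (p := 2) (by norm_num)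
    exact_mod_cast this
  rw [e, padicValRat.neg, padicValRat.div (div_ne_zero hk0 hV0) two_ne_zero,
    padicValRat.div hk0 hV0, val_odd hk.2, val_odd hV, h22]
  norm_num

lemma not_ori_zero (x : ℚ) : ¬ Ori x 0 := by
  unfold Ori
  have h22 : padicValRat 2 (2 : ℚ) = 1 := by
    have := padicValRat.self (p := 2) (by norm_num)
    exact_mod_cast this
  rw [zero_div, show ((0 : ℚ) - 1) / 4 = -(1 / (2 * 2)) by norm_num, padicValRat.neg,
    padicValRat.div one_ne_zero (by norm_num), padicValRat.mul two_ne_zero two_ne_zero, h22,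
    padicValRat.one]
  norm_num

/-- denominators -/
def AllowedDen (x : ℚ) : Prop := ∀ p : ℕ, p.Prime → p ∣ x.den → Allowed p

lemma gen_lift {x y : ℚ} (h : x ^ 2 + 7 * y ^ 2 = 1) (hx : AllowedDen x) (hy : AllowedDen y) :
    ∃ (n : ℕ) (s s' : ℚ), Sg s ∧ Sg s' ∧ x = s * ax n ∧ y = s' * ay n := by
  obtain ⟨n, h1, h2⟩ := norm_one h hx hy
  have h3 : ∃ s, Sg s ∧ x = s * ax n := by
    rcases h1 with h | h
    · exact ⟨1, Or.inl rfl, by rw [h, one_mul]⟩
    · exact ⟨-1, Or.inr rfl, by rw [h]; ring⟩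
  have h4 : ∃ s, Sg s ∧ y = s * ay n := by
    rcases h2 with h | h
    · exact ⟨1, Or.inl rfl, by rw [h, one_mul]⟩
    · exact ⟨-1, Or.inr rfl, by rw [h]; ring⟩
  obtain ⟨s, hs, h5⟩ := h3
  obtain ⟨s', hs', h6⟩ := h4
  exact ⟨n, s, s', hs, hs', h5, h6⟩

lemma ori_lift {x y : ℚ} (h : x ^ 2 + 7 * y ^ 2 = 1) (hx : AllowedDen x) (hy : AllowedDen y)
    (ho : Ori x y) : ∃ e, Pt x y e := by
  obtain ⟨n, s, s', hs, hs', rfl, rfl⟩ := gen_lift h hx hy
  have hn : 1 ≤ n := by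
    by_contra hcon
    have : n = 0 := by omega
    subst this
    rw [ay_zero, mul_zero] at ho
    exact not_ori_zero _ ho
  refine ⟨n, s, hs, rfl, ?_, hn⟩
  have h1 : s' = s ∨ s' = -s := by
    rcases hs with rfl | rfl <;> rcases hs' with rfl | rfl <;> norm_num
  rcases h1 with h1 | h1
  · rw [h1]
  · rw [h1] at ho
    exact absurd ho (not_ori_neg hs hn)

lemma Pt.val {x y : ℚ} {e : ℕ} (h : Pt x y e) : x ≠ 0 ∧ padicValRat 2 x = -((e : ℤ) + 1) := by
  obtain ⟨s, hs, rfl, -, he⟩ := h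
  have h0 : ax e ≠ 0 := by
    unfold ax
    have : (V (2 * e) : ℚ) ≠ 0 := by exact_mod_cast V_ne_zero (by omega)
    positivity
  exact ⟨mul_ne_zero hs.ne h0, by rw [padicValRat.mul hs.ne h0, hs.val, val_ax he, zero_add]⟩

lemma v22 : padicValRat 2 (2 : ℚ) = 1 := by
  have := padicValRat.self (p := 2) (by norm_num)
  exact_mod_cast this

lemma Pt.lt {x y x' y' : ℚ} {e e' : ℕ} (h : Pt x y e) (h' : Pt x' y' e')  :
    0 ≤ padicValRat 2 (x / (2 * x')) ↔ e < e' := by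
  obtain ⟨h0, hv⟩ := h.val
  obtain ⟨h0', hv'⟩ := h'.val
  rw [padicValRat.div h0 (mul_ne_zero two_ne_zero h0'), padicValRat.mul two_ne_zero h0', v22, hv,
    hv']
  omega

/-- certificate for powers of two -/
lemma Pt.pow {x y : ℚ} {e : ℕ} (h : Pt x y e) : N2 (y / 3) ↔ ∃ w, 1 ≤ w ∧ e = 2 ^ w := by
  obtain ⟨s, hs, -, rfl, he⟩ := h
  rw [← powU_iff e he]
  have e1 : s * ay e / 3 = ((U (2 * e) : ℚ) / 3) * (s * (2 ^ (e + 1))⁻¹) := by
    unfold ay
    field_simp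
  rw [e1, ((N2u_sg hs).mul (N2u_pow _).inv).iff]

/-- product certificate -/
def ProdT (x₁ y₁ x₂ y₂ x₃ y₃ : ℚ) : Prop :=
  N2 (dy x₃ y₃ x₁ y₁ / dy x₂ y₂ (-3 / 4) (1 / 4))

lemma ax_one : ax 1 = -3 / 4 := by
  have : V 2 = -3 := by norm_num [V]
  unfold ax
  rw [show 2 * 1 = 2 by norm_num, this]
  norm_num

lemma ay_one : ay 1 = 1 / 4 := by
  have : U 2 = 1 := by norm_num [U]
  unfold ay
  rw [show 2 * 1 = 2 by norm_num, this]
  norm_num

lemma prodT_iff {x₁ y₁ x₂ y₂ x₃ y₃ : ℚ} {w v u : ℕ} (h1 : Pt x₁ y₁ (2 ^ w)) (h2 : Pt x₂ y₂ (2 ^ v))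
    (h3 : Pt x₃ y₃ (2 ^ (w + u))) (hw : 1 ≤ w) (hv : 1 ≤ v) (hu : 1 ≤ u) :
    ProdT x₁ y₁ x₂ y₂ x₃ y₃ ↔ u = v := by
  rw [← prodU_iff w v u hw hv hu]
  obtain ⟨s₁, hs₁, rfl, rfl, -⟩ := h1
  obtain ⟨s₂, hs₂, rfl, rfl, -⟩ := h2
  obtain ⟨s₃, hs₃, rfl, rfl, -⟩ := h3
  unfold ProdT
  obtain ⟨t, ht⟩ : ∃ t, t = 2 ^ (w + u) - 2 ^ w := ⟨_, rfl⟩
  obtain ⟨t', ht'⟩ : ∃ t', t' = 2 ^ v - 1 := ⟨_, rfl⟩
  have hle : 2 ^ w ≤ 2 ^ (w + u) := Nat.pow_le_pow_right (by norm_num) (by omega)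
  have hle' : 1 ≤ 2 ^ v := Nat.one_le_two_pow
  have e1 : 2 ^ (w + u) = 2 ^ w + t := by omega
  have e2 : 2 ^ v = 1 + t' := by omega
  rw [← ht, ← ht', e1, e2, dy_val hs₁ hs₃, ← ax_one, ← ay_one]
  have e3 := dy_val (s := 1) (Or.inl rfl) hs₂ 1 t'
  rw [one_mul, one_mul] at e3
  rw [e3]
  have e4 : ay (2 * t) / ay (2 * t') = ((U (4 * t) : ℚ) / U (4 * t')) *
      (2 ^ (2 * t' + 1) * (2 ^ (2 * t + 1))⁻¹) := by
    unfold ay
    rw [show 2 * (2 * t) = 4 * t by ring, show 2 * (2 * t') = 4 * t' by ring]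
    by_cases h0 : (U (4 * t') : ℚ) = 0
    · rw [h0]; simp
    · field_simp
  rw [e4, ((N2u_pow _).mul (N2u_pow _).inv).iff]

/-! Congruences modulo `q` of rational numbers whose denominators are powers of two. -/

/-- congruent modulo `q` -/
def Cg (q : ℤ) (x : ℚ) (z : ℤ) : Prop := ∃ (n : ℤ) (t : ℕ), x = z + q * n / 2 ^ t

lemma Cg.add {q : ℤ} {x x' : ℚ} {z z' : ℤ} (h : Cg q x z) (h' : Cg q x' z') :
    Cg q (x + x') (z + z') := by
  obtain ⟨n, t, rfl⟩ := h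
  obtain ⟨n', t', rfl⟩ := h'
  refine ⟨n * 2 ^ t' + n' * 2 ^ t, t + t', ?_⟩
  push_cast
  rw [pow_add]
  have h1 : (2 : ℚ) ^ t ≠ 0 := by positivity
  have h2 : (2 : ℚ) ^ t' ≠ 0 := by positivity
  field_simp
  ring

lemma Cg.mul {q : ℤ} {x x' : ℚ} {z z' : ℤ} (h : Cg q x z) (h' : Cg q x' z') :
    Cg q (x * x') (z * z') := by
  obtain ⟨n, t, rfl⟩ := h
  obtain ⟨n', t', rfl⟩ := h'
  refine ⟨z * n' * 2 ^ t + z' * n * 2 ^ t' + q * n * n', t + t', ?_⟩
  push_cast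
  rw [pow_add]
  have h1 : (2 : ℚ) ^ t ≠ 0 := by positivity
  have h2 : (2 : ℚ) ^ t' ≠ 0 := by positivity
  field_simp
  ring

lemma Cg.int (q z : ℤ) : Cg q (z : ℚ) z := ⟨0, 0, by simp⟩

lemma Cg.neg {q : ℤ} {x : ℚ} {z : ℤ} (h : Cg q x z) : Cg q (-x) (-z) := by
  obtain ⟨n, t, rfl⟩ := h
  exact ⟨-n, t, by push_cast; ring⟩

lemma Cg.poly {σ : Type} {q : ℤ} (P : MvPolynomial σ ℤ) {v : σ → ℚ} {w : σ → ℤ}
    (h : ∀ i, Cg q (v i) (w i)) : Cg q (aeval v P) (eval w P) := by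
  induction P using MvPolynomial.induction_on with
  | C a => simpa using Cg.int q a
  | add p r hp hr => rw [map_add, map_add]; exact hp.add hr
  | mul_X p i hp => rw [map_mul, map_mul, aeval_X, eval_X]; exact hp.mul (h i)

lemma Cg.dvd {q : ℕ} (hq : q.Prime) (hq2 : q ≠ 2) {x : ℚ} {z : ℤ} (h : Cg q x z)
    (hx : x = 0 ∨ 1 ≤ padicValRat q x) : (q : ℤ) ∣ z := by
  have := Fact.mk hq
  obtain ⟨n, t, hn⟩ := h
  have h2t : (2 : ℚ) ^ t ≠ 0 := by positivity
  have e : ((z * 2 ^ t + q * n : ℤ) : ℚ) = x * 2 ^ t := by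
    rw [hn]; push_cast; field_simp
  have h1 : (q : ℤ) ∣ z * 2 ^ t + q * n := by
    apply dvd_of_val hq
    rw [e]
    rcases hx with hx | hx
    · left; rw [hx, zero_mul]
    · right
      have hx0 : x ≠ 0 := by rintro rfl; simp at hx
      have h2 : padicValRat q ((2 : ℚ) ^ t) = 0 := by
        rw [padicValRat.pow]
        have : padicValRat q ((2 : ℕ) : ℚ) = 0 := by
          rw [padicValRat.of_nat, padicValNat_primes hq2]
          rfl
        rw [show (2 : ℚ) = ((2 : ℕ) : ℚ) by norm_num, this, mul_zero]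
      rw [padicValRat.mul hx0 h2t, h2, add_zero]
      exact hx
  have h3 : (q : ℤ) ∣ z * 2 ^ t := (dvd_add_left (dvd_mul_right _ _)).1 h1
  have h4 : IsCoprime (q : ℤ) (2 ^ t) := by
    refine IsCoprime.pow_right ?_
    have : Nat.Coprime q 2 := (Nat.coprime_primes hq Nat.prime_two).2 hq2
    exact_mod_cast Nat.isCoprime_iff_coprime.2 this
  exact h4.dvd_of_dvd_mul_right h3

lemma Cg.of_dvd {q m : ℤ} (h : q ∣ m) (t : ℕ) : Cg q ((m : ℚ) / 2 ^ t) 0 := by
  obtain ⟨k, rfl⟩ := h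
  exact ⟨k, t, by push_cast; ring⟩

/-- first coordinate minus one of an even power -/
lemma ax_sub_one (n : ℕ) : ax (2 * n) - 1 = ((-7 * U (2 * n) ^ 2 : ℤ) : ℚ) / 2 ^ (2 * n + 1) := by
  have h1 : V (2 * (2 * n)) = V (2 * n) ^ 2 - 2 * 2 ^ (2 * n) := V_two_mul _
  have h2 := UV_norm (2 * n)
  have h3 : V (2 * (2 * n)) - 2 * 2 ^ (2 * n) = -7 * U (2 * n) ^ 2 := by linarith
  have h4 : (V (2 * (2 * n)) : ℚ) - 2 * 2 ^ (2 * n) = ((-7 * U (2 * n) ^ 2 : ℤ) : ℚ) := by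
    rw [← h3]; push_cast; ring
  unfold ax
  rw [← h4]
  have h5 : (2 : ℚ) ^ (2 * n + 1) ≠ 0 := by positivity
  field_simp
  ring

lemma ax_add_one (n : ℕ) : ax n + 1 = ((V n ^ 2 : ℤ) : ℚ) / 2 ^ (n + 1) := by
  have h1 : V (2 * n) = V n ^ 2 - 2 * 2 ^ n := V_two_mul _
  unfold ax
  rw [h1]
  have h5 : (2 : ℚ) ^ (n + 1) ≠ 0 := by positivity
  push_cast
  field_simp
  ring

/-! The formula. -/

/-- fourth power -/
def q4x (x y : ℚ) : ℚ := sqx (sqx x y) (sqy x y)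
def q4y (x y : ℚ) : ℚ := sqy (sqx x y) (sqy x y)

lemma q4x_ax {s s' : ℚ} (hs : Sg s) (hs' : Sg s') (n : ℕ) :
    q4x (s * ax n) (s' * ay n) = ax (4 * n) := by
  unfold q4x
  rw [sqx_ax hs hs', sqy_ax]
  have h1 : Sg (s * s') := by
    rcases hs with rfl | rfl <;> rcases hs' with rfl | rfl <;> norm_num [Sg]
  have := sqx_ax (s := 1) (Or.inl rfl) h1 (2 * n)
  rw [one_mul] at this
  rw [this]
  congr 1
  ring

lemma q4y_ax {s : ℚ} (hs : Sg s) (n : ℕ) :
    q4y (s * ax n) (s * ay n) = ay (4 * n) := by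
  unfold q4y
  rw [sqx_ax hs hs, sqy_ax]
  have h1 : s * s = 1 := by have := hs.sq; rwa [pow_two] at this
  have := sqy_ax 1 1 (2 * n)
  rw [one_mul, one_mul, one_mul] at this
  rw [h1, one_mul, this, one_mul]
  congr 1
  ring

/-- the entries of the common prime predicate -/
noncomputable def ents2 {k n : ℕ} (P : MvPolynomial (Fin k ⊕ Fin n) ℤ) (κ : ℕ) (a : Fin k → ℚ)
    (x y : ℕ → ℚ) : List ℚ :=
  [sqx (x κ) (y κ) + 1,
    aeval (Sum.elim a (fun j : Fin n =>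
      sqy (x (κ + 2 + j)) (y (κ + 2 + j)) / q4y (x κ) (y κ))) P] ++
  (List.range n).map (fun j => sqx (x (κ + 2 + j)) (y (κ + 2 + j)) - 1)

/-- the reading formula -/
def Read2 {k n : ℕ} (P : MvPolynomial (Fin k ⊕ Fin n) ℤ) (κ c₀ : ℕ) (a c : Fin k → ℚ)
    (x y : ℕ → ℚ) : Prop :=
  (∀ i < κ + 2 + n, x i ^ 2 + 7 * y i ^ 2 = 1) ∧
  (∀ i < κ + 2, Ori (x i) (y i) ∧ N2 (y i / 3)) ∧
  (∀ i < κ, 0 ≤ padicValRat 2 (x i / (2 * x (i + 1))) ∧
    ProdT (x i) (y i) (x i) (y i) (x (i + 1)) (y (i + 1))) ∧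
  (0 ≤ padicValRat 2 (x κ / (2 * x (κ + 1))) ∧
    ProdT (x κ) (y κ) (x 0) (y 0) (x (κ + 1)) (y (κ + 1))) ∧
  0 ≤ padicValRat 2 (1 / (2 ^ (c₀ + 1) * x 0)) ∧
  (∀ i, 0 ≤ padicValRat 2 (1 / (2 * c i * x 0))) ∧
  (∀ j < n, 0 ≤ padicValRat 2 (sqx (x (κ + 2 + j)) (y (κ + 2 + j)) /
    (2 * q4x (x (κ + 1)) (y (κ + 1))))) ∧
  CP (ents2 P κ a x y)

lemma val_two_pow (t : ℕ) : padicValRat 2 ((2 : ℚ) ^ t) = t := by
  rw [padicValRat.pow, v22, mul_one]

theorem read2_sound {k n : ℕ} (P : MvPolynomial (Fin k ⊕ Fin n) ℤ) {C d : ℕ}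
    (hCd : ∀ g : ℕ, 1 ≤ g → ∀ v : Fin k ⊕ Fin n → ℤ, (∀ i, |v i| ≤ g) → |eval v P| ≤ C * g ^ d)
    (a : Fin k → ℕ) (x y : ℕ → ℚ)
    (hxy : ∀ i < d + 2 + n, AllowedDen (x i) ∧ AllowedDen (y i))
    (h : Read2 P d (C + 1) (fun i => (a i : ℚ)) (fun i => (2 : ℚ) ^ a i) x y) :
    ∃ X : Fin n → ℤ, eval (Sum.elim (fun i => (a i : ℤ)) X) P = 0 := by
  obtain ⟨hnorm, hori, hchain, ⟨hB1, hB2⟩, hc₀, hca, hY, hCP⟩ := h
  -- exponents
  have hpt : ∀ i, ∃ e, i < d + 2 → Pt (x i) (y i) e := by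
    intro i
    by_cases hi : i < d + 2
    · obtain ⟨e, he⟩ := ori_lift (hnorm i (by omega)) (hxy i (by omega)).1 (hxy i (by omega)).2
        (hori i hi).1
      exact ⟨e, fun _ => he⟩
    · exact ⟨0, fun h => absurd h hi⟩
  choose e he using hpt
  have hw : ∀ i, ∃ w, i < d + 2 → 1 ≤ w ∧ e i = 2 ^ w := by
    intro i
    by_cases hi : i < d + 2
    · obtain ⟨w, hw⟩ := ((he i hi).pow).1 (hori i hi).2
      exact ⟨w, fun _ => hw⟩
    · exact ⟨0, fun h => absurd h hi⟩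
  choose w hw using hw
  have hpt2 : ∀ i < d + 2, Pt (x i) (y i) (2 ^ w i) := by
    intro i hi
    rw [← (hw i hi).2]; exact he i hi
  have hlt : ∀ {i j : ℕ}, i < d + 2 → j < d + 2 → 0 ≤ padicValRat 2 (x i / (2 * x j)) →
      ∃ t, 1 ≤ t ∧ w j = w i + t := by
    intro i j hi hj h
    have h1 := ((hpt2 i hi).lt (hpt2 j hj)).1 h
    rw [Nat.pow_lt_pow_iff_right (by norm_num)] at h1
    exact ⟨w j - w i, by omega, by omega⟩
  have hstep : ∀ i < d, w (i + 1) = 2 * w i := by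
    intro i hi
    obtain ⟨h1, h2⟩ := hchain i hi
    obtain ⟨t, ht1, ht⟩ := hlt (i := i) (j := i + 1) (by omega) (by omega) h1
    have h3 := hpt2 (i + 1) (by omega)
    rw [ht] at h3
    have := (prodT_iff (hpt2 i (by omega)) (hpt2 i (by omega)) h3 (hw i (by omega)).1
      (hw i (by omega)).1 ht1).1 h2
    omega
  have hwj : ∀ j ≤ d, w j = 2 ^ j * w 0 := by
    intro j
    induction j with
    | zero => intro _; simp
    | succ j ih =>
      intro hj
      rw [hstep j (by omega), ih (by omega), pow_succ]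
      ring
  have hwB : w (d + 1) = w d + w 0 := by
    obtain ⟨t, ht1, ht⟩ := hlt (i := d) (j := d + 1) (by omega) (by omega) hB1
    have h3 := hpt2 (d + 1) (by omega)
    rw [ht] at h3
    have := (prodT_iff (hpt2 d (by omega)) (hpt2 0 (by omega)) h3 (hw d (by omega)).1
      (hw 0 (by omega)).1 ht1).1 hB2
    omega
  obtain ⟨γ, hγ⟩ : ∃ γ : ℕ, γ = 2 ^ w 0 := ⟨_, rfl⟩
  obtain ⟨E, hE⟩ : ∃ E : ℕ, E = 2 ^ w d := ⟨_, rfl⟩
  have hw0 := (hw 0 (by omega)).1
  have hwd := (hw d (by omega)).1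
  have hEγ : E = γ ^ (2 ^ d) := by
    rw [hE, hγ, hwj d (by omega), ← pow_mul]
    ring_nf
  have hB : 2 ^ w (d + 1) = E * γ := by
    rw [hwB, hE, hγ, ← pow_add]
  have hEpos : 1 ≤ E := by rw [hE]; exact Nat.one_le_two_pow
  have hγpos : 1 ≤ γ := by rw [hγ]; exact Nat.one_le_two_pow
  -- bounds for the parameters
  obtain ⟨hx00, hx0v⟩ := (hpt2 0 (by omega)).val
  rw [← hγ] at hx0v
  have hγC : C + 1 ≤ γ := by
    rw [padicValRat.div one_ne_zero (mul_ne_zero (by positivity) hx00),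
      padicValRat.mul (by positivity) hx00, val_two_pow, padicValRat.one, hx0v] at hc₀
    push_cast at hc₀
    omega
  have haγ : ∀ i, a i ≤ γ := by
    intro i
    have h1 := hca i
    rw [padicValRat.div one_ne_zero (mul_ne_zero (by positivity) hx00),
      padicValRat.mul (by positivity) hx00, padicValRat.mul two_ne_zero (by positivity),
      val_two_pow, padicValRat.one, v22, hx0v] at h1
    omega
  -- the captured prime
  obtain ⟨q, hq, hall⟩ := hCP.sound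
  have hqp := hq.1
  have := Fact.mk hqp
  have hq2 : q ≠ 2 := by
    have := hq.2
    omega
  obtain ⟨j, hj⟩ : ∃ j, j = w d + 1 := ⟨_, rfl⟩
  have hjE : 2 ^ j = 2 * E := by rw [hj, hE, pow_succ]; ring
  obtain ⟨g, hg⟩ : ∃ g : ℕ, g = 2 ^ (j + 1) := ⟨_, rfl⟩
  have hgE : g = 4 * E := by rw [hg, pow_succ, hjE]; ring
  obtain ⟨sd, hsd, hxd, hyd, -⟩ := hpt2 d (by omega)
  rw [← hE] at hxd hyd
  have hqV : (q : ℤ) ∣ V (2 ^ j) := by
    have h1 := hall (sqx (x d) (y d) + 1) (by simp [ents2])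
    rw [hxd, hyd, sqx_ax hsd hsd, ← hjE, ax_add_one] at h1
    have h3 : (q : ℤ) ∣ V (2 ^ j) ^ 2 := by
      have h4 : (q : ℤ) ∣ 0 + V (2 ^ j) ^ 2 := by
        apply dvd_of_val hqp
        have e1 : ((0 + V (2 ^ j) ^ 2 : ℤ) : ℚ) =
            (((V (2 ^ j) ^ 2 : ℤ) : ℚ) / 2 ^ (2 ^ j + 1)) * 2 ^ (2 ^ j + 1) := by
          rw [zero_add]; field_simp
        rw [e1]
        rcases h1 with h1 | h1
        · left; rw [h1, zero_mul]
        · right
          have hx0 : (((V (2 ^ j) ^ 2 : ℤ) : ℚ) / 2 ^ (2 ^ j + 1)) ≠ 0 := by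
            intro h0
            rw [h0] at h1
            simp at h1
          have h2 : padicValRat q ((2 : ℚ) ^ (2 ^ j + 1)) = 0 := by
            rw [padicValRat.pow]
            have : padicValRat q ((2 : ℕ) : ℚ) = 0 := by
              rw [padicValRat.of_nat, padicValNat_primes hq2]
              rfl
            rw [show (2 : ℚ) = ((2 : ℕ) : ℚ) by norm_num, this, mul_zero]
          rw [padicValRat.mul hx0 (by positivity), h2, add_zero]
          exact h1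
      rwa [zero_add] at h4
    exact Int.Prime.dvd_pow' hqp h3
  have hq7 : q ≠ 7 := by
    intro h7
    rw [h7] at hqV
    have h1 := UV_norm (2 ^ j)
    have h2 : (7 : ℤ) ∣ 4 * 2 ^ (2 ^ j) := by
      rw [← h1]
      exact dvd_add (Dvd.dvd.pow (by exact_mod_cast hqV) (by norm_num)) (dvd_mul_right _ _)
    have h3 : (7 : ℤ) ∣ 2 ^ (2 + 2 ^ j) := by
      rw [pow_add]; exact_mod_cast h2
    have h4 := Int.Prime.dvd_pow' (by norm_num : Nat.Prime 7) h3
    norm_num at h4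
  obtain ⟨hrank, hqle⟩ := rank_V' hqp hq2 hqV
  rw [← hg] at hqle
  have hgpos : 1 ≤ g := by omega
  have hUg : (q : ℤ) ∣ U g := (hrank g).2 (by rw [hg])
  -- coded integers
  have hcode : ∀ i : Fin n, ∃ X : ℤ, |X| ≤ γ ∧
      Cg q (sqy (x (d + 2 + i)) (y (d + 2 + i)) / q4y (x d) (y d)) X := by
    intro i
    obtain ⟨m, s, s', hs, hs', hxi, hyi⟩ := gen_lift (hnorm (d + 2 + i) (by omega))
      (hxy (d + 2 + i) (by omega)).1 (hxy (d + 2 + i) (by omega)).2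
    have h1 := hall (sqx (x (d + 2 + i)) (y (d + 2 + i)) - 1) (by
      simp only [ents2, List.mem_append, List.mem_map, List.mem_range]
      exact Or.inr ⟨i, i.2, rfl⟩)
    rw [hxi, hyi, sqx_ax hs hs', ax_sub_one] at h1
    have hUm : (q : ℤ) ∣ U (2 * m) := by
      have h4 : (q : ℤ) ∣ -7 * U (2 * m) ^ 2 := by
        apply dvd_of_val hqp
        have e1 : ((-7 * U (2 * m) ^ 2 : ℤ) : ℚ) =
            (((-7 * U (2 * m) ^ 2 : ℤ) : ℚ) / 2 ^ (2 * m + 1)) * 2 ^ (2 * m + 1) := by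
          field_simp
        rw [e1]
        rcases h1 with h1 | h1
        · left; rw [h1, zero_mul]
        · right
          have hx0 : (((-7 * U (2 * m) ^ 2 : ℤ) : ℚ) / 2 ^ (2 * m + 1)) ≠ 0 := by
            intro h0
            rw [h0] at h1
            simp at h1
          have h2 : padicValRat q ((2 : ℚ) ^ (2 * m + 1)) = 0 := by
            rw [padicValRat.pow]
            have : padicValRat q ((2 : ℕ) : ℚ) = 0 := by
              rw [padicValRat.of_nat, padicValNat_primes hq2]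
              rfl
            rw [show (2 : ℚ) = ((2 : ℕ) : ℚ) by norm_num, this, mul_zero]
          rw [padicValRat.mul hx0 (by positivity), h2, add_zero]
          exact h1
      have h5 : (q : ℤ) ∣ 7 * U (2 * m) ^ 2 := by
        have := (dvd_neg (a := (q : ℤ)) (b := 7 * U (2 * m) ^ 2)).1 (by
          have e : -(7 * U (2 * m) ^ 2) = -7 * U (2 * m) ^ 2 := by ring
          rw [e]; exact h4)
        exact this
      have h6 : IsCoprime (q : ℤ) 7 := by
        have : Nat.Coprime q 7 := (Nat.coprime_primes hqp (by norm_num)).2 hq7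
        exact_mod_cast Nat.isCoprime_iff_coprime.2 this
      exact Int.Prime.dvd_pow' hqp (h6.dvd_of_dvd_mul_left h5)
    obtain ⟨t, ht⟩ := (hrank (2 * m)).1 hUm
    rw [← hg] at ht
    -- size
    have htγ : t ≤ γ := by
      rcases Nat.eq_zero_or_pos m with hm | hm
      · rw [hm, mul_zero] at ht
        have : t = 0 := by
          rcases Nat.mul_eq_zero.1 ht.symm with h | h
          · omega
          · exact h
        omega
      · have h2 := hY i i.2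
        obtain ⟨sB, hsB, hxB, hyB, -⟩ := hpt2 (d + 1) (by omega)
        rw [hxi, hyi, sqx_ax hs hs', hxB, hyB, q4x_ax hsB hsB, hB] at h2
        have h0 : ax (2 * m) ≠ 0 := by
          unfold ax
          have : (V (2 * (2 * m)) : ℚ) ≠ 0 := by exact_mod_cast V_ne_zero (by omega)
          positivity
        have hpos : 1 ≤ 4 * (E * γ) := by
          have := Nat.mul_pos hEpos hγpos
          omega
        have h0' : ax (4 * (E * γ)) ≠ 0 := by
          unfold ax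
          have : (V (2 * (4 * (E * γ))) : ℚ) ≠ 0 := by exact_mod_cast V_ne_zero (by omega)
          positivity
        rw [padicValRat.div h0 (mul_ne_zero two_ne_zero h0'), padicValRat.mul two_ne_zero h0', v22,
          val_ax (by omega), val_ax hpos] at h2
        have h3 : 2 * m < 4 * (E * γ) := by
          push_cast at h2
          have h4 : ((2 * m : ℕ) : ℤ) < ((4 * (E * γ) : ℕ) : ℤ) := by push_cast; linarith
          exact_mod_cast h4
        rw [ht, hgE, mul_assoc] at h3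
        have h4 : E * t < E * γ := by omega
        exact (lt_of_mul_lt_mul_left h4 (Nat.zero_le _)).le
    have hss : Sg (s * s') := by
      rcases hs with rfl | rfl <;> rcases hs' with rfl | rfl <;> norm_num [Sg]
    have hval : sqy (x (d + 2 + i)) (y (d + 2 + i)) / q4y (x d) (y d) =
        (s * s') * (ay (g * t) / ay g) := by
      rw [hxi, hyi, sqy_ax, hxd, hyd, q4y_ax hsd, ht, hgE]
      ring
    have hr : Cg q (ay (g * t) / ay g) (t : ℤ) := by
      obtain ⟨N, r, hN⟩ := ratio_mod hgpos hUg t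
      exact ⟨N, r, by rw [hN]; push_cast; ring⟩
    rcases hss with h1 | h1
    · refine ⟨t, ?_, ?_⟩
      · rw [abs_of_nonneg (by positivity)]; exact_mod_cast htγ
      · rw [hval, h1, one_mul]; exact hr
    · refine ⟨-t, ?_, ?_⟩
      · rw [abs_neg, abs_of_nonneg (by positivity)]; exact_mod_cast htγ
      · rw [hval, h1, neg_one_mul]; exact hr.neg
  choose X hXγ hX using hcode
  refine ⟨X, ?_⟩
  have hcong : (q : ℤ) ∣ eval (Sum.elim (fun i => (a i : ℤ)) X) P := by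
    have h1 := hall (aeval (Sum.elim (fun i => (a i : ℚ)) (fun j : Fin n =>
      sqy (x (d + 2 + j)) (y (d + 2 + j)) / q4y (x d) (y d))) P) (by simp [ents2])
    refine Cg.dvd hqp hq2 (Cg.poly P ?_) h1
    intro i
    rcases i with i | i
    · have := Cg.int q (a i : ℤ)
      simpa using this
    · exact hX i
  have hb := hCd γ hγpos (Sum.elim (fun i => (a i : ℤ)) X) (by
    intro i
    rcases i with i | i
    · simp only [Sum.elim_inl]
      rw [abs_of_nonneg (by positivity)]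
      exact_mod_cast haγ i
    · exact hXγ i)
  have hlt2 : C * γ ^ d < E := by
    calc C * γ ^ d < γ * γ ^ d := Nat.mul_lt_mul_of_pos_right (by omega) (by positivity)
      _ = γ ^ (d + 1) := by rw [pow_succ, mul_comm]
      _ ≤ γ ^ (2 ^ d) := Nat.pow_le_pow_right hγpos (Nat.lt_two_pow_self)
      _ = E := hEγ.symm
  apply Int.eq_zero_of_abs_lt_dvd hcong
  calc |eval (Sum.elim (fun i => (a i : ℤ)) X) P| ≤ C * γ ^ d := hb
    _ < E := by exact_mod_cast hlt2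
    _ ≤ q := by
      have : E ≤ q := by omega
      exact_mod_cast this

end Vale.Agent.P027.T2
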