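import Mathlib
import Vale.Agent.P027.R2.H124.Read2

/-! Completeness of the reading formula on the torus. -/

namespace Vale.Agent.P027.T2

open Vale.Agent.P027 MvPolynomial

/-- the exponents used in the completeness proof -/
def expo2 (w d : ℕ) (x : ℕ → ℤ) : ℕ → ℕ := fun i =>
  if i < d + 1 then 2 ^ (2 ^ i * w) else if i = d + 1 then 2 ^ (2 ^ d * w + w)
  else 2 * 2 ^ (2 ^ d * w) * (x (i - (d + 2))).natAbs

/-- the signs used in the completeness proof -/
def sgn2 (d : ℕ) (x : ℕ → ℤ) : ℕ → ℚ := fun i =>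
  if i < d + 2 then 1 else if 0 ≤ x (i - (d + 2)) then 1 else -1

lemma sgn2_sg (d : ℕ) (x : ℕ → ℤ) (i : ℕ) : Sg (sgn2 d x i) := by
  unfold sgn2 Sg
  split_ifs <;> simp

lemma ax_ne (n : ℕ) : ax n ≠ 0 := by
  unfold ax
  rcases Nat.eq_zero_or_pos n with h | h
  · subst h; simp [V_zero]
  · have : (V (2 * n) : ℚ) ≠ 0 := by exact_mod_cast V_ne_zero (by omega)
    positivity

lemma val_ax_le (n : ℕ) : -((n : ℤ) + 1) ≤ padicValRat 2 (ax n) := by
  rcases Nat.eq_zero_or_pos n with h | h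
  · subst h; rw [ax_zero]; simp
  · rw [val_ax h]

lemma pt_ax {n : ℕ} (hn : 1 ≤ n) : Pt (ax n) (1 * ay n) n :=
  ⟨1, Or.inl rfl, by rw [one_mul], rfl, hn⟩

theorem read2_complete {k n : ℕ} (P : MvPolynomial (Fin k ⊕ Fin n) ℤ) (d c₀ : ℕ)
    (a : Fin k → ℕ) (x : Fin n → ℤ) (hP : eval (Sum.elim (fun i => (a i : ℤ)) x) P = 0) :
    ∃ (e : ℕ → ℕ) (s : ℕ → ℚ), (∀ i, Sg (s i)) ∧
      Read2 P d c₀ (fun i => (a i : ℚ)) (fun i => (2 : ℚ) ^ a i) (fun i => ax (e i))
        (fun i => s i * ay (e i)) := by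
  obtain ⟨w, hw⟩ : ∃ w : ℕ, w = c₀ + 3 + ∑ j, (x j).natAbs + ∑ i, a i := ⟨_, rfl⟩
  obtain ⟨y, hy⟩ : ∃ y : ℕ → ℤ, ∀ j : Fin n, y j = x j :=
    ⟨fun j => if h : j < n then x ⟨j, h⟩ else 0, fun j => by simp⟩
  have hw2 : w < 2 ^ w := Nat.lt_two_pow_self
  have hxw : ∀ j, (x j).natAbs < 2 ^ w := by
    intro j
    have := Finset.single_le_sum (f := fun j => (x j).natAbs) (fun i _ => Nat.zero_le _)
      (Finset.mem_univ j)
    beta_reduce at this
    omega
  have haw : ∀ i, a i ≤ 2 ^ w := by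
    intro i
    have := Finset.single_le_sum (f := a) (fun i _ => Nat.zero_le _) (Finset.mem_univ i)
    omega
  obtain ⟨W, hW⟩ : ∃ W : ℕ, W = 2 ^ d * w := ⟨_, rfl⟩
  have hWw : w ≤ W := by
    rw [hW]; exact Nat.le_mul_of_pos_left _ (by positivity)
  obtain ⟨E, hE⟩ : ∃ E : ℕ, E = 2 ^ W := ⟨_, rfl⟩
  have hEpos : 1 ≤ E := by rw [hE]; exact Nat.one_le_two_pow
  obtain ⟨g, hg⟩ : ∃ g : ℕ, g = 2 ^ (W + 1 + 1) := ⟨_, rfl⟩
  have hgE : g = 4 * E := by rw [hg, hE]; ring
  have hgpos : 1 ≤ g := by omega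
  obtain ⟨e, he⟩ : ∃ e, e = expo2 w d y := ⟨_, rfl⟩
  obtain ⟨s, hs⟩ : ∃ s, s = sgn2 d y := ⟨_, rfl⟩
  have hsg : ∀ i, Sg (s i) := by rw [hs]; exact sgn2_sg d y
  have e1 : ∀ i < d + 1, e i = 2 ^ (2 ^ i * w) := by
    intro i hi; rw [he]; simp [expo2, hi]
  have ed : e d = E := by rw [e1 d (by omega), hE, hW]
  have e2 : e (d + 1) = 2 ^ (W + w) := by
    rw [he, hW]
    simp [expo2]
  have e4 : ∀ j : Fin n, e (d + 2 + j) = 2 * E * (x j).natAbs := by
    intro j
    rw [he, ← hy j, hE, hW]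
    unfold expo2
    rw [if_neg (by omega), if_neg (by omega)]
    congr 3
    omega
  have s1 : ∀ i < d + 2, s i = 1 := by
    intro i hi; rw [hs]; simp [sgn2, hi]
  have s2 : ∀ j : Fin n, s (d + 2 + j) * ((x j).natAbs : ℚ) = x j := by
    intro j
    have h1 : s (d + 2 + j) = if 0 ≤ x j then 1 else -1 := by
      rw [hs, ← hy j]
      unfold sgn2
      rw [if_neg (by omega)]
      have : d + 2 + (j : ℕ) - (d + 2) = j := by omega
      rw [this]
    rw [h1, Nat.cast_natAbs]
    split_ifs with h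
    · rw [abs_of_nonneg h, one_mul]
    · rw [abs_of_neg (by omega)]; push_cast; ring
  have key : ∀ i < d + 2, ∃ t, 1 ≤ t ∧ e i = 2 ^ t := by
    intro i hi
    by_cases h : i < d + 1
    · refine ⟨2 ^ i * w, ?_, e1 i h⟩
      exact Nat.mul_pos (by positivity) (by omega)
    · have : i = d + 1 := by omega
      subst this
      exact ⟨W + w, by omega, e2⟩
  have hpos : ∀ i < d + 2, 1 ≤ e i := by
    intro i hi
    obtain ⟨t, -, ht⟩ := key i hi
    rw [ht]; exact Nat.one_le_two_pow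
  have hpt : ∀ i < d + 2, Pt (ax (e i)) (s i * ay (e i)) (e i) := by
    intro i hi
    rw [s1 i hi]
    exact pt_ax (hpos i hi)
  obtain ⟨b, hb, hb12, hbV⟩ := exists_prime_V (j := W + 1) (by omega)
  obtain ⟨q, hq⟩ : ∃ q, q = b.natAbs := ⟨_, rfl⟩
  rw [← hq] at hb
  have hq2 : q ≠ 2 := by
    intro h
    rw [h] at hq
    omega
  have hqb : ∀ z : ℤ, (q : ℤ) ∣ z ↔ b ∣ z := by
    intro z; rw [hq, Int.natAbs_dvd]
  have hrank := rank_V hb hq2 ((hqb _).2 hbV)
  have hUg : b ∣ U g := by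
    rw [← hqb, hrank, hg]
  have hUk : ∀ m, b ∣ U (g * m) := by
    intro m
    rw [← hqb, hrank, ← hg]
    exact dvd_mul_right _ _
  refine ⟨e, s, hsg, ?_, ?_, ?_, ⟨?_, ?_⟩, ?_, ?_, ?_, ?_⟩
  · intro i _
    have := ax_ay_norm (e i)
    have h2 := (hsg i).sq
    simp only
    linear_combination this + 7 * (ay (e i)) ^ 2 * h2
  · intro i hi
    simp only
    refine ⟨?_, ((hpt i hi).pow).2 (key i hi)⟩
    have := ori_ax (s := 1) (Or.inl rfl) (hpos i hi)
    rw [s1 i hi]
    rwa [one_mul] at this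
  · intro i hi
    simp only
    have h1 : 1 ≤ 2 ^ i * w := Nat.mul_pos (by positivity) (by omega)
    have h2 : 2 ^ (i + 1) * w = 2 ^ i * w + 2 ^ i * w := by ring
    have p1 := hpt i (by omega)
    have p2 := hpt (i + 1) (by omega)
    refine ⟨?_, ?_⟩
    · rw [p1.lt p2, e1 i (by omega), e1 (i + 1) (by omega), h2,
        Nat.pow_lt_pow_iff_right (by norm_num)]
      omega
    · have p1' := p1
      have p2' := p2
      rw [e1 i (by omega)] at p1'
      rw [e1 (i + 1) (by omega), h2] at p2'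
      rw [e1 i (by omega), e1 (i + 1) (by omega), h2]
      exact (prodT_iff p1' p1' p2' h1 h1 h1).2 rfl
  · simp only
    rw [(hpt d (by omega)).lt (hpt (d + 1) (by omega)), ed, e2, hE,
      Nat.pow_lt_pow_iff_right (by norm_num)]
    omega
  · simp only
    have p1 := hpt d (by omega)
    have p2 := hpt 0 (by omega)
    have p3 := hpt (d + 1) (by omega)
    rw [ed, hE] at p1
    rw [e1 0 (by omega), pow_zero, one_mul] at p2
    rw [e2] at p3
    rw [ed, hE, e1 0 (by omega), pow_zero, one_mul, e2]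
    exact (prodT_iff p1 p2 p3 (by omega) (by omega) (by omega)).2 rfl
  · simp only
    obtain ⟨h0, hv⟩ := (hpt 0 (by omega)).val
    rw [padicValRat.div one_ne_zero (mul_ne_zero (by positivity) h0),
      padicValRat.mul (by positivity) h0, val_two_pow, padicValRat.one, hv,
      e1 0 (by omega), pow_zero, one_mul]
    push_cast
    have : ((w : ℕ) : ℤ) < ((2 ^ w : ℕ) : ℤ) := by exact_mod_cast hw2
    push_cast at this
    omega
  · intro i
    simp only
    obtain ⟨h0, hv⟩ := (hpt 0 (by omega)).val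
    have h1 := haw i
    rw [padicValRat.div one_ne_zero (mul_ne_zero (by positivity) h0),
      padicValRat.mul (by positivity) h0, padicValRat.mul two_ne_zero (by positivity),
      val_two_pow, padicValRat.one, v22, hv, e1 0 (by omega), pow_zero, one_mul]
    omega
  · intro i hi
    simp only
    have h1 := e4 ⟨i, hi⟩
    simp only at h1
    have h2 := sqx_ax (s := 1) (Or.inl rfl) (hsg (d + 2 + i)) (e (d + 2 + i))
    rw [one_mul] at h2
    have h3 := q4x_ax (s := 1) (Or.inl rfl) (hsg (d + 1)) (e (d + 1))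
    rw [one_mul] at h3
    rw [h2, h3, h1, e2]
    have h4 := hxw ⟨i, hi⟩
    rw [padicValRat.div (ax_ne _) (mul_ne_zero two_ne_zero (ax_ne _)),
      padicValRat.mul two_ne_zero (ax_ne _), v22,
      val_ax (n := 4 * 2 ^ (W + w)) (by have := Nat.one_le_two_pow (n := W + w); omega)]
    have h5 := val_ax_le (2 * (2 * E * (x ⟨i, hi⟩).natAbs))
    have h6 : E * (x ⟨i, hi⟩).natAbs < E * 2 ^ w := Nat.mul_lt_mul_of_pos_left h4 (by omega)
    have h7 : 2 ^ (W + w) = E * 2 ^ w := by rw [pow_add, hE]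
    have h8 : 2 * (2 * E * (x ⟨i, hi⟩).natAbs) = 4 * (E * (x ⟨i, hi⟩).natAbs) := by ring
    rw [h7]
    rw [h8] at h5 ⊢
    omega
  · apply CP.complete'' (by rw [← hq]; exact hb) hb12
    have hof : ∀ {m : ℤ} {t : ℕ}, b ∣ m → ∃ (n : ℤ) (t : ℕ), ((m : ℚ) / 2 ^ t) = b * n / 2 ^ t := by
      rintro m t ⟨k, rfl⟩
      exact ⟨k, t, by push_cast; ring⟩
    have hxs : ∀ i : ℕ, sqx (ax (e i)) (s i * ay (e i)) = ax (2 * e i) := by
      intro i
      have h2 := sqx_ax (s := 1) (Or.inl rfl) (hsg i) (e i)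
      rwa [one_mul] at h2
    intro z hz
    simp only [ents2, List.mem_append, List.mem_map, List.mem_range, List.mem_cons,
      List.not_mem_nil, or_false] at hz
    rcases hz with (hz | hz) | ⟨i, hi, hz⟩
    · rw [hz, hxs, ed, ax_add_one]
      have h1 : 2 * E = 2 ^ (W + 1) := by rw [hE, pow_succ]; ring
      rw [h1]
      obtain ⟨m, hm⟩ := hbV
      exact ⟨m * V (2 ^ (W + 1)), 2 ^ (W + 1) + 1, by rw [pow_two]; nth_rewrite 1 [hm]; push_cast; ring⟩
    · have h1 : Cg b (aeval (Sum.elim (fun i => (a i : ℚ)) (fun j : Fin n =>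
          sqy (ax (e (d + 2 + j))) (s (d + 2 + j) * ay (e (d + 2 + j))) /
            q4y (ax (e d)) (s d * ay (e d)))) P)
          (eval (Sum.elim (fun i => (a i : ℤ)) x) P) := by
        apply Cg.poly
        intro i
        rcases i with i | j
        · have := Cg.int b (a i : ℤ)
          simpa using this
        · simp only [Sum.elim_inr]
          have h2 : sqy (ax (e (d + 2 + j))) (s (d + 2 + j) * ay (e (d + 2 + j))) =
              s (d + 2 + j) * ay (g * (x j).natAbs) := by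
            have := sqy_ax 1 (s (d + 2 + j)) (e (d + 2 + j))
            rw [one_mul, one_mul] at this
            rw [this, e4 j, hgE]
            congr 2
            ring
          have h3 : q4y (ax (e d)) (s d * ay (e d)) = ay g := by
            have := q4y_ax (s := 1) (Or.inl rfl) (e d)
            rw [one_mul] at this
            rw [s1 d (by omega), this, ed, hgE]
          rw [h2, h3, mul_div_assoc]
          obtain ⟨m, t, hm⟩ := ratio_mod hgpos hUg (x j).natAbs
          rw [hm]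
          rcases hsg (d + 2 + j) with h | h
          · have h4 := s2 j
            rw [h] at h4 ⊢
            rw [one_mul] at h4
            exact ⟨m, t, by rw [h4]; ring⟩
          · have h4 := s2 j
            rw [h] at h4 ⊢
            have h5 : ((x j).natAbs : ℚ) = -x j := by linarith
            exact ⟨-m, t, by rw [h5]; push_cast; ring⟩
      rw [hP] at h1
      obtain ⟨m, t, hm⟩ := h1
      refine ⟨m, t, ?_⟩
      rw [hz, hm]
      simp
    · rw [← hz, hxs, ax_sub_one]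
      have h1 := e4 ⟨i, hi⟩
      simp only at h1
      have h2 : 2 * e (d + 2 + i) = g * (x ⟨i, hi⟩).natAbs := by rw [h1, hgE]; ring
      rw [h2]
      obtain ⟨m, hm⟩ := hUk (x ⟨i, hi⟩).natAbs
      exact ⟨-7 * m * U (g * (x ⟨i, hi⟩).natAbs), g * (x ⟨i, hi⟩).natAbs + 1, by
        rw [pow_two]; nth_rewrite 1 [hm]; push_cast; ring⟩

end Vale.Agent.P027.T2
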