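import Mathlib
import Vale.Agent.P027.R2.H124.Read
import Vale.Agent.P027.R2.H250.Pack
import Vale.Agent.P027.R2.H250.IntP

/-! The reading formula is Diophantine; the polynomial of a recursively enumerable set. -/

namespace Vale.Agent.P027.T2

open Vale.Agent.P027 MvPolynomial Vale.Agent.P027.R2.H955

theorem nonneg_iff4 (x : ℚ) : 0 ≤ x ↔ ∃ a b c d : ℚ, x = a ^ 2 + b ^ 2 + c ^ 2 + d ^ 2 := by
  constructor
  · intro h
    obtain ⟨a, b, c, d, h4⟩ := Nat.sum_four_squares (x.num.toNat * x.den)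
    have hd : (x.den : ℚ) ≠ 0 := by exact_mod_cast x.den_ne_zero
    have hn : ((x.num.toNat : ℕ) : ℚ) = x.num := by
      have : ((x.num.toNat : ℕ) : ℤ) = x.num := Int.toNat_of_nonneg (Rat.num_nonneg.2 h)
      exact_mod_cast this
    refine ⟨a / x.den, b / x.den, c / x.den, d / x.den, ?_⟩
    have h5 : ((a : ℚ)) ^ 2 + b ^ 2 + c ^ 2 + d ^ 2 = x.num * x.den := by
      rw [← hn]; exact_mod_cast h4
    have h6 : x = x.num / x.den := (Rat.num_div_den x).symm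
    rw [div_pow, div_pow, div_pow, div_pow, ← add_div, ← add_div, ← add_div, h5]
    nth_rw 1 [h6]
    rw [pow_two, mul_div_mul_right _ _ hd]
  · rintro ⟨a, b, c, d, rfl⟩
    positivity

theorem dio_nonneg {f : (ℕ → ℚ) → ℚ} (hf : DioFn f) : Dio (fun v => 0 ≤ f v) := by
  refine Dio.app1 (S := fun x => 0 ≤ x) ?_ hf
  have h : Dio (fun v => ∃ a b c d : ℚ, v 0 = a ^ 2 + b ^ 2 + c ^ 2 + d ^ 2) := by
    refine Dio.ex (Dio.ex (Dio.ex (Dio.ex ?_)))
    exact Dio.eq (DioFn.var 4) (((((DioFn.var 3).pow 2).add ((DioFn.var 2).pow 2)).add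
      ((DioFn.var 1).pow 2)).add ((DioFn.var 0).pow 2))
  exact h.congr (fun v => nonneg_iff4 _)

theorem dio_le {f g : (ℕ → ℚ) → ℚ} (hf : DioFn f) (hg : DioFn g) : Dio (fun v => f v ≤ g v) :=
  (dio_nonneg (hg.sub hf)).congr (fun v => by rw [sub_nonneg])

theorem dio_lt {f g : (ℕ → ℚ) → ℚ} (hf : DioFn f) (hg : DioFn g) : Dio (fun v => f v < g v) :=
  ((dio_le hf hg).and (Dio.ne hf hg)).congr (fun v => lt_iff_le_and_ne)

theorem dio_sum2 {f : (ℕ → ℚ) → ℚ} (hf : DioFn f) : Dio (fun v => Sum2 (f v)) := by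
  refine Dio.app1 (S := fun x => Sum2 x) ?_ hf
  unfold Sum2
  refine Dio.ex (Dio.ex ?_)
  exact Dio.eq (DioFn.var 2) (((DioFn.var 1).pow 2).add ((DioFn.var 0).pow 2))

theorem dio_five12 {f : (ℕ → ℚ) → ℚ} (hf : DioFn f) : Dio (fun v => Five12 (f v)) := by
  unfold Five12
  exact (dio_int2 ((hf.sub (lit_fn 5)).div (lit_fn 12))).and
    (dio_int3 ((hf.sub (lit_fn 5)).div (lit_fn 12)))

theorem dio_cap3 {f g : (ℕ → ℚ) → ℚ} (hf : DioFn f) (hg : DioFn g) :
    Dio (fun v => Cap3 (f v) (g v)) := by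
  refine Dio.app2 ?_ hf hg
  unfold Cap3
  refine (Dio.ne (DioFn.var 0) zero_fn).and ((Dio.ex (Dio.ex ?_)).and (Dio.ex (Dio.ex ?_)))
  · exact Dio.eq (DioFn.var 2) (((DioFn.var 1).pow 2).sub ((lit_fn 3).mul ((DioFn.var 0).pow 2)))
  · exact Dio.eq ((lit_fn 3).mul (DioFn.var 2))
      (((DioFn.var 1).pow 2).sub ((DioFn.var 3).mul ((DioFn.var 0).pow 2)))

theorem dio_con3 {f g h : (ℕ → ℚ) → ℚ} (hf : DioFn f) (hg : DioFn g) (hh : DioFn h) :
    Dio (fun v => Con3 (f v) (g v) (h v)) := by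
  refine Dio.app3 ?_ hf hg hh
  unfold Con3
  refine Dio.ex (Dio.ex ?_)
  exact Dio.eq (((DioFn.var 1).pow 2).sub ((DioFn.var 2).mul ((DioFn.var 0).pow 2)))
    (one_fn.add (((lit_fn 12).mul (DioFn.var 3)).mul ((DioFn.var 4).pow 2)))

theorem dio_forall_list {A : List ((ℕ → ℚ) → ℚ)} {Q : ℚ → (ℕ → ℚ) → Prop}
    (hQ : ∀ f ∈ A, Dio (fun v => Q (f v) v)) : Dio (fun v => ∀ x ∈ A.map (fun f => f v), Q x v) := by
  induction A with
  | nil => exact Dio.true.congr (fun v => by simp)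
  | cons f A ih =>
    refine ((hQ f (by simp)).and (ih (fun g hg => hQ g (by simp [hg])))).congr (fun v => ?_)
    simp

theorem dio_cp {A : List ((ℕ → ℚ) → ℚ)} (hA : ∀ f ∈ A, DioFn f) :
    Dio (fun v => CP (A.map (fun f => f v))) := by
  unfold CP
  refine Dio.ex (S := fun a v => ∃ b : ℚ, Five12 b ∧ Cap3 a b ∧ Con3 a b 1 ∧
    ∀ x ∈ A.map (fun f => f v), Con3 a b (x / b)) ?_
  refine Dio.ex (S := fun b v => Five12 b ∧ Cap3 (v 0) b ∧ Con3 (v 0) b 1 ∧
    ∀ x ∈ A.map (fun f => f (tl v)), Con3 (v 0) b (x / b)) ?_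
  refine (dio_five12 (DioFn.var 0)).and ((dio_cap3 (DioFn.var 1) (DioFn.var 0)).and
    ((dio_con3 (DioFn.var 1) (DioFn.var 0) one_fn).and ?_))
  have h := dio_forall_list (A := A.map (fun f => fun v : ℕ → ℚ => f (tl (tl v))))
    (Q := fun x v => Con3 (v 1) (v 0) (x / v 0)) (by
      intro f hf
      obtain ⟨g, hg, rfl⟩ := List.mem_map.1 hf
      exact dio_con3 (DioFn.var 1) (DioFn.var 0) ((hA g hg).tl.tl.div (DioFn.var 0)))
  refine h.congr (fun v => ?_)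
  simp only [List.map_map]
  rfl

theorem fn_aeval {σ : Type} (P : MvPolynomial σ ℤ) {A : σ → (ℕ → ℚ) → ℚ} (hA : ∀ i, DioFn (A i)) :
    DioFn (fun v => aeval (fun i => A i v) P) := by
  induction P using MvPolynomial.induction_on with
  | C a =>
    have := DioFn.int a
    simpa using this
  | add p q hp hq => simpa using hp.add hq
  | mul_X p i hp => simpa using hp.mul (hA i)

theorem dio_prodC {f g h : (ℕ → ℚ) → ℚ} (hf : DioFn f) (hg : DioFn g) (hh : DioFn h) :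
    Dio (fun v => ProdC (f v) (g v) (h v)) := by
  unfold ProdC
  exact dio_sum2 ((((hh.div hf).pow 2).sub one_fn).div (((hg.div (lit_fn 2)).pow 2).sub one_fn))

/-- entries as functions of the environment -/
noncomputable def entsF {k n : ℕ} (P : MvPolynomial (Fin k ⊕ Fin n) ℤ) (κ : ℕ)
    (A : Fin k → (ℕ → ℚ) → ℚ) (U : ℕ → (ℕ → ℚ) → ℚ) (H : (ℕ → ℚ) → ℚ) : List ((ℕ → ℚ) → ℚ) :=
  [fun v => H v + 1, fun v => (U (κ + 1) v - 1) / (U κ v - 1) - U (κ + 3) v,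
    fun v => aeval (fun i => Sum.elim (fun i => A i v)
      (fun j : Fin n => (U (κ + 4 + j) v - 1) / (U κ v - 1)) i) P] ++
  (List.range n).map (fun j => fun v => U (κ + 4 + j) v - 1)

theorem entsF_map {k n : ℕ} (P : MvPolynomial (Fin k ⊕ Fin n) ℤ) (κ : ℕ)
    (A : Fin k → (ℕ → ℚ) → ℚ) (U : ℕ → (ℕ → ℚ) → ℚ) (H : (ℕ → ℚ) → ℚ) (v : ℕ → ℚ) :
    (entsF P κ A U H).map (fun f => f v) = ents P κ (fun i => A i v) (fun j => U j v) (H v) := by
  simp [entsF, ents]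

theorem dio_read {k n : ℕ} (P : MvPolynomial (Fin k ⊕ Fin n) ℤ) (κ c₀ : ℕ)
    {A : Fin k → (ℕ → ℚ) → ℚ} {U : ℕ → (ℕ → ℚ) → ℚ} (hA : ∀ i, DioFn (A i))
    (hU : ∀ i, DioFn (U i)) :
    Dio (fun v => Read P κ c₀ (fun i => A i v) (fun j => U j v)) := by
  unfold Read
  have hc : DioFn (fun _ => (2 : ℚ) ^ c₀) := (lit_fn 2).pow c₀
  refine (dio_le hc (hU 0)).and (Dio.and ?_ (Dio.and ?_ (Dio.and ?_ (Dio.and ?_ (Dio.and ?_
    (Dio.and ?_ ?_))))))
  · exact K2.Dio.forall_lt (fun j => (dio_lt one_fn (hU j)).and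
      (dio_sum2 (((hU j).sub one_fn).div (lit_fn 3)))) _
  · exact K2.Dio.forall_lt (fun j => (dio_lt (hU j) (hU (j + 1))).and
      (dio_prodC (hU j) (hU j) (hU (j + 1)))) _
  · exact (dio_lt (hU _) (hU _)).and (dio_prodC (hU _) (hU _) (hU _))
  · exact (dio_le one_fn (hU _)).and (dio_lt (hU _) (hU _))
  · have h := K2.Dio.forall_lt (S := fun j v => ∀ h : j < k, ((A ⟨j, h⟩ v) ^ 2) ^ (2 ^ κ) ≤
      (U (κ + 3) v) ^ 2) (fun j => by
        by_cases hj : j < k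
        · exact (dio_le (((hA ⟨j, hj⟩).pow 2).pow (2 ^ κ)) ((hU (κ + 3)).pow 2)).congr
            (fun v => by simp [hj])
        · exact Dio.true.congr (fun v => by simp [hj])) k
    refine h.congr (fun v => ?_)
    constructor
    · intro h j hj _
      exact h ⟨j, hj⟩
    · intro h i
      exact h i i.2 i.2
  · exact K2.Dio.forall_lt (fun j => (dio_le one_fn (hU _)).and (dio_lt (hU _) (hU _))) _
  · refine Dio.ex (S := fun H v => 0 < H ∧ H ^ 2 = U κ v ∧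
      CP (ents P κ (fun i => A i v) (fun j => U j v) H)) ?_
    refine (dio_lt zero_fn (DioFn.var 0)).and ((Dio.eq ((DioFn.var 0).pow 2) (hU κ).tl).and ?_)
    have h := dio_cp (A := entsF P κ (fun i v => A i (tl v)) (fun j v => U j (tl v))
      (fun v => v 0)) (by
        intro f hf
        simp only [entsF, List.mem_append, List.mem_cons, List.not_mem_nil, or_false,
          List.mem_map, List.mem_range] at hf
        rcases hf with (rfl | rfl | rfl) | ⟨j, _, rfl⟩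
        · exact (DioFn.var 0).add one_fn
        · exact (((hU _).tl.sub one_fn).div ((hU _).tl.sub one_fn)).sub (hU _).tl
        · refine fn_aeval P (A := fun i v => Sum.elim (fun i => A i (tl v))
            (fun j : Fin n => (U (κ + 4 + j) (tl v) - 1) / (U κ (tl v) - 1)) i) ?_
          intro i
          rcases i with i | i
          · exact (hA i).tl
          · exact ((hU _).tl.sub one_fn).div ((hU _).tl.sub one_fn)
        · exact (hU _).tl.sub one_fn)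
    refine h.congr (fun v => ?_)
    rw [entsF_map]

/-- the polynomial of a recursively enumerable set of tuples of integers -/
theorem dprm_int {k : ℕ} {S : Set (Fin k → ℤ)} (hS : REPred (fun a => a ∈ S)) :
    ∃ (n : ℕ) (P : MvPolynomial (Fin k ⊕ Fin n) ℤ), ∀ a : Fin k → ℤ,
      (a ∈ S ↔ ∃ x : Fin n → ℕ, eval (Sum.elim a (fun j => (x j : ℤ))) P = 0) := by
  obtain ⟨m, P, hP, -⟩ := Vale.Agent.P345.SF.exists_mvPolynomial
    (Vale.Agent.P345.sf_of_rePred _ _ (K2.rePred_pairs hS))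
  -- unknowns: the pairs, then the unknowns of `P`
  let Q : MvPolynomial (Fin k ⊕ Fin (2 * k + m)) ℤ :=
    (rename (fun i => Sum.inr (Sum.elim (Fin.castAdd m) (Fin.natAdd (2 * k)) i)) P) ^ 2 +
      ∑ i : Fin k, (X (Sum.inl i) - (X (Sum.inr (Fin.castAdd m ⟨2 * i, by omega⟩)) -
        X (Sum.inr (Fin.castAdd m ⟨2 * i + 1, by omega⟩)))) ^ 2
  refine ⟨2 * k + m, Q, fun a => ?_⟩
  have ev : ∀ x : Fin (2 * k + m) → ℕ, eval (Sum.elim a (fun j => (x j : ℤ))) Q =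
      (eval (Sum.elim (fun i => ((x (Fin.castAdd m i) : ℕ) : ℤ))
        (fun j => ((x (Fin.natAdd (2 * k) j) : ℕ) : ℤ))) P) ^ 2 +
      ∑ i : Fin k, (a i - (((x (Fin.castAdd m ⟨2 * i, by omega⟩) : ℕ) : ℤ) -
        ((x (Fin.castAdd m ⟨2 * i + 1, by omega⟩) : ℕ) : ℤ))) ^ 2 := by
    intro x
    simp only [Q, map_add, map_pow, map_sum, map_sub, eval_X, eval_rename, Sum.elim_inl,
      Sum.elim_inr]
    congr 3
    congr 1
    funext i
    rcases i with i | i <;> rfl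
  constructor
  · intro ha
    obtain ⟨b, hb⟩ : ∃ b : Fin (2 * k) → ℕ, ∀ i : Fin k,
        ((b ⟨2 * i, by omega⟩ : ℕ) : ℤ) - ((b ⟨2 * i + 1, by omega⟩ : ℕ) : ℤ) = a i := by
      refine ⟨fun j => if j.1 % 2 = 0 then (a ⟨j.1 / 2, by omega⟩).toNat
        else (-(a ⟨j.1 / 2, by omega⟩)).toNat, fun i => ?_⟩
      have h1 : (2 * i.1) % 2 = 0 := by omega
      have h2 : (2 * i.1 + 1) % 2 ≠ 0 := by omega
      have h3 : (⟨(2 * i.1) / 2, by omega⟩ : Fin k) = i := Fin.ext (by simp)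
      have h4 : (⟨(2 * i.1 + 1) / 2, by omega⟩ : Fin k) = i := Fin.ext (by simp; omega)
      simp only [h1, h2, if_true, if_false]
      rw [h3, h4]
      omega
    have hbS : b ∈ {a : Fin (2 * k) → ℕ | (fun i : Fin k =>
      ((a ⟨2 * i, by omega⟩ : ℕ) : ℤ) - ((a ⟨2 * i + 1, by omega⟩ : ℕ) : ℤ)) ∈ S} := by
      rw [Set.mem_ofPred_eq]
      have : (fun i : Fin k => ((b ⟨2 * i, by omega⟩ : ℕ) : ℤ) -
        ((b ⟨2 * i + 1, by omega⟩ : ℕ) : ℤ)) = a := funext hb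
      rw [this]
      exact ha
    obtain ⟨w, hw⟩ := (hP b).1 hbS
    refine ⟨Fin.append b w, ?_⟩
    rw [ev]
    simp only [Fin.append_left, Fin.append_right]
    rw [hw, Finset.sum_eq_zero (fun i _ => by rw [hb i]; ring)]
    ring
  · rintro ⟨x, hx⟩
    rw [ev] at hx
    have h1 : 0 ≤ ∑ i : Fin k, (a i - (((x (Fin.castAdd m ⟨2 * i, by omega⟩) : ℕ) : ℤ) -
        ((x (Fin.castAdd m ⟨2 * i + 1, by omega⟩) : ℕ) : ℤ))) ^ 2 :=
      Finset.sum_nonneg (fun i _ => sq_nonneg _)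
    have h2 := sq_nonneg (eval (Sum.elim (fun i => ((x (Fin.castAdd m i) : ℕ) : ℤ))
        (fun j => ((x (Fin.natAdd (2 * k) j) : ℕ) : ℤ))) P)
    have h3 : eval (Sum.elim (fun i => ((x (Fin.castAdd m i) : ℕ) : ℤ))
        (fun j => ((x (Fin.natAdd (2 * k) j) : ℕ) : ℤ))) P = 0 :=
      pow_eq_zero_iff (n := 2) (by norm_num) |>.1 (by linarith)
    have h4 : ∑ i : Fin k, (a i - (((x (Fin.castAdd m ⟨2 * i, by omega⟩) : ℕ) : ℤ) -
        ((x (Fin.castAdd m ⟨2 * i + 1, by omega⟩) : ℕ) : ℤ))) ^ 2 = 0 := by linarith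
    rw [Finset.sum_eq_zero_iff_of_nonneg (fun i _ => sq_nonneg _)] at h4
    have h5 := (hP (fun i => x (Fin.castAdd m i))).2 ⟨fun j => x (Fin.natAdd (2 * k) j), h3⟩
    rw [Set.mem_ofPred_eq] at h5
    have : (fun i : Fin k => (((x (Fin.castAdd m ⟨2 * i, by omega⟩) : ℕ) : ℤ) -
        ((x (Fin.castAdd m ⟨2 * i + 1, by omega⟩) : ℕ) : ℤ))) = a := by
      funext i
      have h6 := pow_eq_zero_iff (n := 2) (by norm_num) |>.1 (h4 i (Finset.mem_univ i))
      linarith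
    rw [this] at h5
    exact h5

end Vale.Agent.P027.T2
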