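import Mathlib
import Vale.Agent.P027.R2.H124.Forms
import Vale.Agent.P027.H434.Main

/-! The theorem on the rational numbers with the powers of two. -/

namespace Vale.Agent.P027.T2

open Vale.Agent.P027 MvPolynomial Vale.Agent.P027.R2.H955

theorem pow_two_of_val {X : ℚ} (h1 : 1 ≤ X)
    (h : ∀ p : ℕ, p.Prime → p ≠ 2 → padicValRat p X = 0) : ∃ n : ℕ, X = 2 ^ n := by
  have hX0 : X ≠ 0 := by rintro rfl; norm_num at h1
  have hnum0 : X.num ≠ 0 := Rat.num_ne_zero.2 hX0
  have hpos : 0 < X.num := Rat.num_pos.2 (lt_of_lt_of_le one_pos h1)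
  have key : ∀ p : ℕ, p.Prime → p ≠ 2 → ¬ p ∣ X.num.natAbs ∧ ¬ p ∣ X.den := by
    intro p hp hp2
    have := Fact.mk hp
    have h2 := h p hp hp2
    have h3 : (padicValNat p X.num.natAbs : ℤ) = padicValNat p X.den := by
      have h4 : padicValRat p X = (padicValInt p X.num : ℤ) - padicValNat p X.den := rfl
      rw [h2] at h4
      have : padicValInt p X.num = padicValNat p X.num.natAbs := rfl
      rw [this] at h4
      linarith
    have h5 : padicValNat p X.num.natAbs = padicValNat p X.den := by exact_mod_cast h3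
    constructor
    · intro hd
      have h6 : 1 ≤ padicValNat p X.num.natAbs :=
        one_le_padicValNat_of_dvd (Int.natAbs_ne_zero.2 hnum0) hd
      have h7 : p ∣ X.den := by
        by_contra hnd
        rw [h5, padicValNat.eq_zero_of_not_dvd hnd] at h6
        omega
      have h8 := Nat.dvd_gcd hd h7
      rw [X.reduced] at h8
      exact hp.one_lt.ne' (Nat.dvd_one.1 h8)
    · intro hd
      have h6 : 1 ≤ padicValNat p X.den := one_le_padicValNat_of_dvd X.den_ne_zero hd
      have h7 : p ∣ X.num.natAbs := by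
        by_contra hnd
        rw [← h5, padicValNat.eq_zero_of_not_dvd hnd] at h6
        omega
      have h8 := Nat.dvd_gcd h7 hd
      rw [X.reduced] at h8
      exact hp.one_lt.ne' (Nat.dvd_one.1 h8)
  have hn : ∃ s, X.num.natAbs = 2 ^ s := by
    rcases Nat.eq_two_pow_or_exists_odd_prime_and_dvd X.num.natAbs with h2 | ⟨p, hp, hd, ho⟩
    · exact h2
    · exact absurd hd (key p hp (by rintro rfl; exact absurd ho (by decide))).1
  have hd : ∃ s, X.den = 2 ^ s := by
    rcases Nat.eq_two_pow_or_exists_odd_prime_and_dvd X.den with h2 | ⟨p, hp, hd, ho⟩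
    · exact h2
    · exact absurd hd (key p hp (by rintro rfl; exact absurd ho (by decide))).2
  obtain ⟨s, hs⟩ := hn
  obtain ⟨t, ht⟩ := hd
  have hnum : (X.num : ℚ) = 2 ^ s := by
    have h2 : (X.num : ℤ) = 2 ^ s := by
      have : ((X.num.natAbs : ℕ) : ℤ) = X.num := Int.natAbs_of_nonneg hpos.le
      rw [← this, hs]; push_cast; ring
    rw [h2]; push_cast; ring
  have hX : X = 2 ^ s / 2 ^ t := by
    have h2 : X = X.num / X.den := (Rat.num_div_den X).symm
    rw [hnum, ht] at h2
    push_cast at h2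
    exact h2
  have hle : t ≤ s := by
    rw [hX, le_div_iff₀ (by positivity), one_mul, two_pow_le] at h1
    exact h1
  refine ⟨s - t, ?_⟩
  rw [hX, div_eq_iff (by positivity), ← pow_add]
  congr 1
  omega

/-- `X` is a power of two, in terms of its power `U` -/
def TM (PP : Finset ℕ) (e : ℕ) (X U : ℚ) : Prop :=
  X ^ e = U ∧ 1 ≤ X ∧ ∀ p ∈ PP.filter (fun p => p.Prime ∧ p ≠ 2),
    0 ≤ padicValRat p X ∧ 0 ≤ padicValRat p (1 / X)

theorem TM.sound {PP : Finset ℕ} {e : ℕ} (he : 1 ≤ e) {X U : ℚ} (h : TM PP e X U)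
    (hU : ∀ p : ℕ, p.Prime → p ∉ PP → padicValRat p U = 0) : ∃ n : ℕ, X = 2 ^ n := by
  obtain ⟨h1, h2, h3⟩ := h
  have hX0 : X ≠ 0 := by rintro rfl; norm_num at h2
  refine pow_two_of_val h2 (fun p hp hp2 => ?_)
  have := Fact.mk hp
  by_cases hpP : p ∈ PP
  · obtain ⟨h4, h5⟩ := h3 p (Finset.mem_filter.2 ⟨hpP, hp, hp2⟩)
    rw [padicValRat.div one_ne_zero hX0, padicValRat.one] at h5
    omega
  · have h4 := hU p hp hpP
    rw [← h1, padicValRat.pow] at h4
    have h5 : (e : ℤ) ≠ 0 := by exact_mod_cast (by omega : e ≠ 0)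
    exact (mul_eq_zero.1 h4).resolve_left h5

theorem TM.complete (PP : Finset ℕ) (e n : ℕ) : TM PP e (2 ^ n) (2 ^ (e * n)) := by
  refine ⟨by rw [← pow_mul, mul_comm], one_le_pow₀ (by norm_num), fun p hp => ?_⟩
  obtain ⟨-, hp, hp2⟩ := Finset.mem_filter.1 hp
  have := Fact.mk hp
  have h2 : padicValRat p ((2 : ℚ) ^ n) = 0 := by
    rw [padicValRat.pow]
    have : padicValRat p ((2 : ℕ) : ℚ) = 0 := by
      rw [padicValRat.of_nat, padicValNat_primes hp2]
      rfl
    rw [show (2 : ℚ) = ((2 : ℕ) : ℚ) by norm_num, this, mul_zero]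
  rw [padicValRat.div one_ne_zero (by positivity), padicValRat.one, h2]
  simp

theorem dio_finset {s : Finset ℕ} {Q : ℕ → (ℕ → ℚ) → Prop} (h : ∀ p ∈ s, Dio (Q p)) :
    Dio (fun v => ∀ p ∈ s, Q p v) := by
  classical
  induction s using Finset.induction_on with
  | empty => exact Dio.true.congr (fun v => by simp)
  | insert a s ha ih =>
    refine ((h a (by simp)).and (ih (fun p hp => h p (by simp [hp])))).congr (fun v => ?_)
    simp

theorem dio_TM (PP : Finset ℕ) (e : ℕ) {f g : (ℕ → ℚ) → ℚ} (hf : DioFn f) (hg : DioFn g) :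
    Dio (fun v => TM PP e (f v) (g v)) := by
  unfold TM
  refine (Dio.eq (hf.pow e) hg).and ((dio_le one_fn hf).and (dio_finset (fun p hp => ?_)))
  obtain ⟨-, hp, -⟩ := Finset.mem_filter.1 hp
  exact (dio_intp hp hf).and (dio_intp hp (one_fn.div hf))

/-- main theorem: soundness over the rationals, completeness over the integers -/
theorem t2_main (k : ℕ) (S : Set (Fin k → ℤ)) (hS : REPred (fun a => a ∈ S)) (PP : Finset ℕ)
    (e : ℕ) (he : 1 ≤ e) : ∃ (m r : ℕ) (F : MvPolynomial (Fin k ⊕ Fin m ⊕ Fin r) ℤ),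
    ∀ a : Fin k → ℤ,
      (a ∈ S → ∃ (u : Fin m → ℕ) (y : Fin r → ℤ), aeval (Sum.elim (fun i => (a i : ℚ))
        (Sum.elim (fun i => (2 : ℚ) ^ (e * u i)) (fun j => (y j : ℚ)))) F = 0) ∧
      (∀ (u : Fin m → ℚ) (y : Fin r → ℚ),
        (∀ i, u i ≠ 0 ∧ ∀ p : ℕ, p.Prime → p ∉ PP → padicValRat p (u i) = 0) →
        aeval (Sum.elim (fun i => (a i : ℚ)) (Sum.elim u y)) F = 0 → a ∈ S) := by
  obtain ⟨n, P, hP⟩ := dprm_int hS
  obtain ⟨C, d, hCd⟩ := eval_bound P
  obtain ⟨m, hm⟩ : ∃ m : ℕ, m = d + 4 + n := ⟨_, rfl⟩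
  let Uf : ℕ → (ℕ → ℚ) → ℚ := fun j v => if j < m then v j else 1
  have hUf : ∀ j, DioFn (Uf j) := by
    intro j
    by_cases hj : j < m
    · simpa [Uf, hj] using DioFn.var j
    · simpa [Uf, hj] using one_fn
  let T : (ℕ → ℚ) → Prop := fun v => (∀ i < m, TM PP e (v i) (v (m + (k + i)))) ∧
    Read P d (C + 1) (fun i : Fin k => v (m + i)) (fun j => Uf j v)
  have hT : Dio T := (K2.Dio.forall_lt (fun i => dio_TM PP e (DioFn.var i)
    (DioFn.var (m + (k + i)))) m).and (dio_read P d (C + 1) (fun i => DioFn.var (m + i)) hUf)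
  obtain ⟨r, F, hF⟩ := pack (k := k) (m := m) (K2.Dio.exN (m := m) hT)
  refine ⟨m, r, F, fun a => ⟨fun ha => ?_, fun u y hu hy => ?_⟩⟩
  · obtain ⟨x, hx⟩ := (hP a).1 ha
    obtain ⟨E, hE⟩ := read_complete P d (C + 1) a x hx
    obtain ⟨y, hy⟩ := (hF a (fun i => (2 : ℚ) ^ (e * E i))).1 (by
      refine ⟨fun i => (2 : ℚ) ^ E i, ?_, ?_⟩
      · intro i hi
        have e1 : K2.appq (fun i : Fin m => (2 : ℚ) ^ E i)
            (envT a (fun i : Fin m => (2 : ℚ) ^ (e * E i))) i = 2 ^ E i := by
          simp [K2.appq, hi]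
        have e2 : K2.appq (fun i : Fin m => (2 : ℚ) ^ E i)
            (envT a (fun i : Fin m => (2 : ℚ) ^ (e * E i))) (m + (k + i)) = 2 ^ (e * E i) := by
          simp [K2.appq, envT, hi]
        rw [e1, e2]
        exact TM.complete PP e (E i)
      · have e3 : (fun i : Fin k => K2.appq (fun i : Fin m => (2 : ℚ) ^ E i)
            (envT a (fun i : Fin m => (2 : ℚ) ^ (e * E i))) (m + i)) = fun i => (a i : ℚ) := by
          funext i
          simp [K2.appq, envT]
        rw [e3]
        -- only the first `m` entries matter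
        have key : ∀ w w' : ℕ → ℚ, (∀ j < m, w j = w' j) →
            Read P d (C + 1) (fun i => (a i : ℚ)) w → Read P d (C + 1) (fun i => (a i : ℚ)) w' := by
          intro w w' hw h
          obtain ⟨h0, hpow, hchain, ⟨hB1, hB2⟩, ⟨hS1, hS2⟩, hA, hY, H, hH0, hH, hCP⟩ := h
          have q0 := hw 0 (by omega)
          have qd := hw d (by omega)
          have q1 := hw (d + 1) (by omega)
          have q2 := hw (d + 2) (by omega)
          have q3 := hw (d + 3) (by omega)
          refine ⟨q0 ▸ h0, ?_, ?_, ⟨?_, ?_⟩, ⟨?_, ?_⟩, ?_, ?_, H, hH0, ?_, ?_⟩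
          · intro j hj
            rw [← hw j (by omega)]
            exact hpow j hj
          · intro j hj
            rw [← hw j (by omega), ← hw (j + 1) (by omega)]
            exact hchain j hj
          · rw [← qd, ← q2]; exact hB1
          · rw [← qd, ← q2, ← q0]; exact hB2
          · rw [← q3]; exact hS1
          · rw [← q3, ← qd]; exact hS2
          · intro i
            rw [← q3]; exact hA i
          · intro j hj
            rw [← hw (d + 4 + j) (by omega), ← q2]
            exact hY j hj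
          · rw [← qd]; exact hH
          · have e4 : ents P d (fun i => (a i : ℚ)) w' H = ents P d (fun i => (a i : ℚ)) w H := by
              unfold ents
              rw [← qd, ← q1, ← q3]
              have e5 : (fun j : Fin n => (w' (d + 4 + j) - 1) / (w d - 1)) =
                  fun j : Fin n => (w (d + 4 + j) - 1) / (w d - 1) := by
                funext j
                rw [hw (d + 4 + j) (by omega)]
              have e6 : (List.range n).map (fun j => w' (d + 4 + j) - 1) =
                  (List.range n).map (fun j => w (d + 4 + j) - 1) := by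
                refine List.map_congr_left (fun j hj => ?_)
                rw [hw (d + 4 + j) (by have := List.mem_range.1 hj; omega)]
              rw [e5, e6]
            rw [e4]
            exact hCP
        refine key _ _ ?_ hE
        intro j hj
        simp only [Uf, hj, if_true]
        simp [K2.appq, hj])
    exact ⟨fun i => E i, y, hy⟩
  · obtain ⟨w, hw1, hw2⟩ := (hF a u).2 ⟨y, hy⟩
    have hpw : ∀ i : ℕ, ∃ t : ℕ, i < m → K2.appq w (envT a u) i = 2 ^ t := by
      intro i
      by_cases hi : i < m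
      · have h1 := hw1 i hi
        have e2 : K2.appq w (envT a u) (m + (k + i)) = u ⟨i, hi⟩ := by
          simp [K2.appq, envT, hi]
        rw [e2] at h1
        obtain ⟨t, ht⟩ := h1.sound he (hu ⟨i, hi⟩).2
        exact ⟨t, fun _ => ht⟩
      · exact ⟨0, fun h => absurd h hi⟩
    choose t ht using hpw
    have e3 : (fun i : Fin k => K2.appq w (envT a u) (m + i)) = fun i => (a i : ℚ) := by
      funext i
      simp [K2.appq, envT]
    have e4 : (fun j => Uf j (K2.appq w (envT a u))) =
        fun j => (2 : ℚ) ^ (if j < m then t j else 0) := by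
      funext j
      simp only [Uf]
      split_ifs with hj
      · exact ht j hj
      · simp
    rw [e3, e4] at hw2
    obtain ⟨x, hx⟩ := read_sound P hCd a _ hw2
    exact (hP a).2 ⟨x, hx⟩

end Vale.Agent.P027.T2
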