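import Mathlib
import Vale.Agent.P027.R2.H124.Forms
import Vale.Agent.P027.R2.H124.Comp2

/-! The reading formula on the torus is Diophantine. -/

namespace Vale.Agent.P027.T2

open Vale.Agent.P027 MvPolynomial Vale.Agent.P027.R2.H955

theorem dio_N2 {f : (ℕ → ℚ) → ℚ} (hf : DioFn f) : Dio (fun v => N2 (f v)) := by
  refine Dio.app1 (S := fun x => N2 x) ?_ hf
  unfold N2
  refine Dio.ex (Dio.ex ?_)
  exact Dio.eq (DioFn.var 2) (((DioFn.var 1).pow 2).sub ((lit_fn 2).mul ((DioFn.var 0).pow 2)))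

theorem dio_ori {f g : (ℕ → ℚ) → ℚ} (hf : DioFn f) (hg : DioFn g) :
    Dio (fun v => Ori (f v) (g v)) := by
  unfold Ori
  exact dio_int2 (((hg.div hf).sub one_fn).div (lit_fn 4))

theorem fn_sqx {f g : (ℕ → ℚ) → ℚ} (hf : DioFn f) (hg : DioFn g) :
    DioFn (fun v => sqx (f v) (g v)) := by
  unfold sqx
  exact (hf.pow 2).sub ((lit_fn 7).mul (hg.pow 2))

theorem fn_sqy {f g : (ℕ → ℚ) → ℚ} (hf : DioFn f) (hg : DioFn g) :
    DioFn (fun v => sqy (f v) (g v)) := by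
  unfold sqy
  exact ((lit_fn 2).mul hf).mul hg

theorem fn_q4x {f g : (ℕ → ℚ) → ℚ} (hf : DioFn f) (hg : DioFn g) :
    DioFn (fun v => q4x (f v) (g v)) := by
  unfold q4x
  exact fn_sqx (fn_sqx hf hg) (fn_sqy hf hg)

theorem fn_q4y {f g : (ℕ → ℚ) → ℚ} (hf : DioFn f) (hg : DioFn g) :
    DioFn (fun v => q4y (f v) (g v)) := by
  unfold q4y
  exact fn_sqy (fn_sqx hf hg) (fn_sqy hf hg)

theorem fn_dy {x₃ y₃ x₁ y₁ : (ℕ → ℚ) → ℚ} (h1 : DioFn x₃) (h2 : DioFn y₃) (h3 : DioFn x₁)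
    (h4 : DioFn y₁) : DioFn (fun v => dy (x₃ v) (y₃ v) (x₁ v) (y₁ v)) := by
  unfold dy
  exact ((lit_fn 2).mul ((h1.mul h3).add (((lit_fn 7).mul h2).mul h4))).mul
    ((h2.mul h3).sub (h1.mul h4))

theorem fn_neg3 : DioFn (fun _ => (-3 : ℚ)) := by
  have := DioFn.int (-3)
  simpa using this

theorem dio_prodT {x₁ y₁ x₂ y₂ x₃ y₃ : (ℕ → ℚ) → ℚ} (h1 : DioFn x₁) (h2 : DioFn y₁)
    (h3 : DioFn x₂) (h4 : DioFn y₂) (h5 : DioFn x₃) (h6 : DioFn y₃) :
    Dio (fun v => ProdT (x₁ v) (y₁ v) (x₂ v) (y₂ v) (x₃ v) (y₃ v)) := by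
  unfold ProdT
  exact dio_N2 ((fn_dy h5 h6 h1 h2).div (fn_dy h3 h4 (fn_neg3.div (lit_fn 4))
    (one_fn.div (lit_fn 4))))

/-- entries as functions of the environment -/
noncomputable def ents2F {k n : ℕ} (P : MvPolynomial (Fin k ⊕ Fin n) ℤ) (κ : ℕ)
    (A : Fin k → (ℕ → ℚ) → ℚ) (x y : ℕ → (ℕ → ℚ) → ℚ) : List ((ℕ → ℚ) → ℚ) :=
  [fun v => sqx (x κ v) (y κ v) + 1,
    fun v => aeval (fun i => Sum.elim (fun i => A i v)
      (fun j : Fin n => sqy (x (κ + 2 + j) v) (y (κ + 2 + j) v) / q4y (x κ v) (y κ v)) i) P] ++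
  (List.range n).map (fun j => fun v => sqx (x (κ + 2 + j) v) (y (κ + 2 + j) v) - 1)

theorem ents2F_map {k n : ℕ} (P : MvPolynomial (Fin k ⊕ Fin n) ℤ) (κ : ℕ)
    (A : Fin k → (ℕ → ℚ) → ℚ) (x y : ℕ → (ℕ → ℚ) → ℚ) (v : ℕ → ℚ) :
    (ents2F P κ A x y).map (fun f => f v) =
      ents2 P κ (fun i => A i v) (fun j => x j v) (fun j => y j v) := by
  simp [ents2F, ents2]

theorem dio_read2 {k n : ℕ} (P : MvPolynomial (Fin k ⊕ Fin n) ℤ) (κ c₀ : ℕ)
    {A B : Fin k → (ℕ → ℚ) → ℚ} {x y : ℕ → (ℕ → ℚ) → ℚ} (hA : ∀ i, DioFn (A i))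
    (hB : ∀ i, DioFn (B i)) (hx : ∀ i, DioFn (x i)) (hy : ∀ i, DioFn (y i)) :
    Dio (fun v => Read2 P κ c₀ (fun i => A i v) (fun i => B i v) (fun j => x j v)
      (fun j => y j v)) := by
  unfold Read2
  have hc : DioFn (fun _ => (2 : ℚ) ^ (c₀ + 1)) := (lit_fn 2).pow (c₀ + 1)
  refine Dio.and ?_ (Dio.and ?_ (Dio.and ?_ (Dio.and ?_ (Dio.and ?_ (Dio.and ?_ (Dio.and ?_ ?_))))))
  · exact K2.Dio.forall_lt (fun j => Dio.eq (((hx j).pow 2).add ((lit_fn 7).mul ((hy j).pow 2)))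
      one_fn) _
  · exact K2.Dio.forall_lt (fun j => (dio_ori (hx j) (hy j)).and
      (dio_N2 ((hy j).div (lit_fn 3)))) _
  · exact K2.Dio.forall_lt (fun j => (dio_int2 ((hx j).div ((lit_fn 2).mul (hx (j + 1))))).and
      (dio_prodT (hx j) (hy j) (hx j) (hy j) (hx (j + 1)) (hy (j + 1)))) _
  · exact (dio_int2 ((hx _).div ((lit_fn 2).mul (hx _)))).and
      (dio_prodT (hx _) (hy _) (hx _) (hy _) (hx _) (hy _))
  · exact dio_int2 (one_fn.div (hc.mul (hx 0)))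
  · have h := K2.Dio.forall_lt (S := fun j v => ∀ h : j < k,
      0 ≤ padicValRat 2 (1 / (2 * B ⟨j, h⟩ v * x 0 v))) (fun j => by
        by_cases hj : j < k
        · exact (dio_int2 (one_fn.div (((lit_fn 2).mul (hB ⟨j, hj⟩)).mul (hx 0)))).congr
            (fun v => by simp [hj])
        · exact Dio.true.congr (fun v => by simp [hj])) k
    refine h.congr (fun v => ?_)
    constructor
    · intro h j hj _
      exact h ⟨j, hj⟩
    · intro h i
      exact h i i.2 i.2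
  · exact K2.Dio.forall_lt (fun j => dio_int2 ((fn_sqx (hx _) (hy _)).div
      ((lit_fn 2).mul (fn_q4x (hx _) (hy _))))) _
  · have h := dio_cp (A := ents2F P κ A x y) (by
        intro f hf
        simp only [ents2F, List.mem_append, List.mem_cons, List.not_mem_nil, or_false,
          List.mem_map, List.mem_range] at hf
        rcases hf with (rfl | rfl) | ⟨j, _, rfl⟩
        · exact (fn_sqx (hx _) (hy _)).add one_fn
        · refine fn_aeval P (A := fun i v => Sum.elim (fun i => A i v)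
            (fun j : Fin n => sqy (x (κ + 2 + j) v) (y (κ + 2 + j) v) /
              q4y (x κ v) (y κ v)) i) ?_
          intro i
          rcases i with i | i
          · exact hA i
          · exact (fn_sqy (hx _) (hy _)).div (fn_q4y (hx _) (hy _))
        · exact (fn_sqx (hx _) (hy _)).sub one_fn)
    refine h.congr (fun v => ?_)
    rw [ents2F_map]

/-- the polynomial of a recursively enumerable set of tuples of natural numbers, with integral
unknowns -/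
theorem dprm_nat {k : ℕ} {S : Set (Fin k → ℕ)} (hS : REPred (fun a => a ∈ S)) :
    ∃ (n : ℕ) (P : MvPolynomial (Fin k ⊕ Fin n) ℤ), ∀ a : Fin k → ℕ,
      (a ∈ S ↔ ∃ x : Fin n → ℤ, eval (Sum.elim (fun i => (a i : ℤ)) x) P = 0) := by
  obtain ⟨m, P, hP, -⟩ := Vale.Agent.P345.SF.exists_mvPolynomial
    (Vale.Agent.P345.sf_of_rePred _ _ hS)
  let Q : MvPolynomial (Fin k ⊕ Fin (4 * m)) ℤ :=
    aeval (Sum.elim (fun i => X (Sum.inl i)) (fun j : Fin m =>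
      X (Sum.inr ⟨4 * j, by omega⟩) ^ 2 + X (Sum.inr ⟨4 * j + 1, by omega⟩) ^ 2 +
      X (Sum.inr ⟨4 * j + 2, by omega⟩) ^ 2 + X (Sum.inr ⟨4 * j + 3, by omega⟩) ^ 2)) P
  have ev : ∀ (a : Fin k → ℕ) (x : Fin (4 * m) → ℤ), eval (Sum.elim (fun i => (a i : ℤ)) x) Q =
      eval (Sum.elim (fun i => (a i : ℤ)) (fun j : Fin m =>
        x ⟨4 * j, by omega⟩ ^ 2 + x ⟨4 * j + 1, by omega⟩ ^ 2 + x ⟨4 * j + 2, by omega⟩ ^ 2 +
          x ⟨4 * j + 3, by omega⟩ ^ 2)) P := by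
    intro a x
    simp only [Q, ← aeval_eq_eval, ← AlgHom.comp_apply, comp_aeval]
    congr 2
    funext i
    rcases i with i | i <;> simp
  refine ⟨4 * m, Q, fun a => ?_⟩
  constructor
  · intro ha
    obtain ⟨x, hx⟩ := (hP a).1 ha
    choose s1 s2 s3 s4 hs using fun j => Nat.sum_four_squares (x j)
    refine ⟨fun i => if i.1 % 4 = 0 then (s1 ⟨i.1 / 4, by omega⟩ : ℤ) else
      if i.1 % 4 = 1 then (s2 ⟨i.1 / 4, by omega⟩ : ℤ) else
      if i.1 % 4 = 2 then (s3 ⟨i.1 / 4, by omega⟩ : ℤ) else (s4 ⟨i.1 / 4, by omega⟩ : ℤ), ?_⟩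
    rw [ev, ← hx]
    congr 2
    funext i
    rcases i with i | j
    · rfl
    simp only [Sum.elim_inr]
    have d0 : (⟨(4 * j.1) / 4, by omega⟩ : Fin m) = j := Fin.ext (by simp)
    have d1 : (⟨(4 * j.1 + 1) / 4, by omega⟩ : Fin m) = j := Fin.ext (by simp; omega)
    have d2 : (⟨(4 * j.1 + 2) / 4, by omega⟩ : Fin m) = j := Fin.ext (by simp; omega)
    have d3 : (⟨(4 * j.1 + 3) / 4, by omega⟩ : Fin m) = j := Fin.ext (by simp; omega)
    have m0 : (4 * j.1) % 4 = 0 := by omega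
    have m1 : (4 * j.1 + 1) % 4 = 1 := by omega
    have m2 : (4 * j.1 + 2) % 4 = 2 := by omega
    have m3 : (4 * j.1 + 3) % 4 = 3 := by omega
    simp only [m0, m1, m2, m3, d0, d1, d2, d3]
    norm_num
    have := hs j
    exact_mod_cast this
  · rintro ⟨x, hx⟩
    rw [ev] at hx
    refine (hP a).2 ⟨fun j => (x ⟨4 * j, by omega⟩ ^ 2 + x ⟨4 * j + 1, by omega⟩ ^ 2 +
      x ⟨4 * j + 2, by omega⟩ ^ 2 + x ⟨4 * j + 3, by omega⟩ ^ 2).toNat, ?_⟩
    rw [← hx]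
    congr 2
    funext i
    rcases i with i | j
    · rfl
    simp only [Sum.elim_inr]
    rw [Int.toNat_of_nonneg (by positivity)]

end Vale.Agent.P027.T2
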