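import Mathlib
import Vale.Agent.P027.R2.H124.FinalT2
import Vale.Agent.P027.R2.H124.Forms2

/-! The theorem on rings with infinitely many primes in the denominators. -/

namespace Vale.Agent.P027.T2

open Vale.Agent.P027 MvPolynomial Vale.Agent.P027.R2.H955

/-- denominators composed of allowed primes and primes of `PP` -/
def DenOK (PP : Finset ℕ) (x : ℚ) : Prop :=
  ∀ p : ℕ, p.Prime → p ∣ x.den → p ∈ PP ∨ Allowed p

/-- the primes of `PP` that are not allowed do not occur -/
def DenC (PP : Finset ℕ) (x : ℚ) : Prop :=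
  ∀ p ∈ PP.filter (fun p => p.Prime ∧ p ≠ 2), (¬ Allowed p → 0 ≤ padicValRat p x)

lemma not_dvd_den_of_val {p : ℕ} (hp : p.Prime) {x : ℚ} (h : 0 ≤ padicValRat p x) :
    ¬ p ∣ x.den := by
  have := Fact.mk hp
  intro hd
  have h1 : 1 ≤ padicValNat p x.den := one_le_padicValNat_of_dvd x.den_ne_zero hd
  have h2 : padicValNat p x.num.natAbs = 0 := by
    apply padicValNat.eq_zero_of_not_dvd
    intro h3
    have h4 := Nat.dvd_gcd h3 hd
    rw [x.reduced] at h4
    exact hp.one_lt.ne' (Nat.dvd_one.1 h4)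
  have h3 : padicValRat p x = (padicValNat p x.num.natAbs : ℤ) - padicValNat p x.den := rfl
  rw [h3, h2] at h
  omega

lemma DenC.allowed {PP : Finset ℕ} {x : ℚ} (h : DenC PP x) (h2 : DenOK PP x) : AllowedDen x := by
  intro p hp hd
  by_contra hcon
  rcases h2 p hp hd with h3 | h3
  · have hp2 : p ≠ 2 := by
      rintro rfl
      exact hcon (Or.inl rfl)
    exact not_dvd_den_of_val hp (h p (Finset.mem_filter.2 ⟨h3, hp, hp2⟩) hcon) hd
  · exact hcon h3

lemma val_div_two_pow {p : ℕ} (hp : p.Prime) (hp2 : p ≠ 2) (z : ℤ) (t : ℕ) :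
    0 ≤ padicValRat p ((z : ℚ) / 2 ^ t) := by
  have := Fact.mk hp
  by_cases hz : z = 0
  · subst hz; simp
  have hz0 : (z : ℚ) ≠ 0 := by exact_mod_cast hz
  have h2 : padicValRat p ((2 : ℚ) ^ t) = 0 := by
    rw [padicValRat.pow]
    have : padicValRat p ((2 : ℕ) : ℚ) = 0 := by
      rw [padicValRat.of_nat, padicValNat_primes hp2]
      rfl
    rw [show (2 : ℚ) = ((2 : ℕ) : ℚ) by norm_num, this, mul_zero]
  rw [padicValRat.div hz0 (by positivity), h2, sub_zero, padicValRat.of_int]
  exact_mod_cast Nat.zero_le _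

lemma denC_div (PP : Finset ℕ) (z : ℤ) (t : ℕ) : DenC PP ((z : ℚ) / 2 ^ t) := by
  intro p hp _
  obtain ⟨-, hp, hp2⟩ := Finset.mem_filter.1 hp
  exact val_div_two_pow hp hp2 z t

theorem dio_denC (PP : Finset ℕ) {f : (ℕ → ℚ) → ℚ} (hf : DioFn f) :
    Dio (fun v => DenC PP (f v)) := by
  unfold DenC
  refine dio_finset (fun p hp => ?_)
  obtain ⟨-, hp, -⟩ := Finset.mem_filter.1 hp
  by_cases h : Allowed p
  · exact Dio.true.congr (fun v => by simp [h])
  · exact (dio_intp hp hf).congr (fun v => by simp [h])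

/-- only finitely many entries matter -/
lemma Read2.congr {k n : ℕ} {P : MvPolynomial (Fin k ⊕ Fin n) ℤ} {d c₀ : ℕ} {a c : Fin k → ℚ}
    {x y x' y' : ℕ → ℚ} (h : ∀ j < d + 2 + n, x j = x' j ∧ y j = y' j)
    (hR : Read2 P d c₀ a c x y) : Read2 P d c₀ a c x' y' := by
  obtain ⟨h1, h2, h3, ⟨h4, h5⟩, h6, h7, h8, h9⟩ := hR
  have qx : ∀ j < d + 2 + n, x j = x' j := fun j hj => (h j hj).1
  have qy : ∀ j < d + 2 + n, y j = y' j := fun j hj => (h j hj).2
  refine ⟨?_, ?_, ?_, ⟨?_, ?_⟩, ?_, ?_, ?_, ?_⟩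
  · intro j hj
    rw [← qx j hj, ← qy j hj]; exact h1 j hj
  · intro j hj
    rw [← qx j (by omega), ← qy j (by omega)]; exact h2 j hj
  · intro j hj
    rw [← qx j (by omega), ← qy j (by omega), ← qx (j + 1) (by omega), ← qy (j + 1) (by omega)]
    exact h3 j hj
  · rw [← qx d (by omega), ← qx (d + 1) (by omega)]; exact h4
  · rw [← qx d (by omega), ← qx (d + 1) (by omega), ← qy d (by omega), ← qy (d + 1) (by omega),
      ← qx 0 (by omega), ← qy 0 (by omega)]
    exact h5
  · rw [← qx 0 (by omega)]; exact h6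
  · intro i
    rw [← qx 0 (by omega)]; exact h7 i
  · intro j hj
    rw [← qx (d + 2 + j) (by omega), ← qy (d + 2 + j) (by omega), ← qx (d + 1) (by omega),
      ← qy (d + 1) (by omega)]
    exact h8 j hj
  · have e4 : ents2 P d a x' y' = ents2 P d a x y := by
      unfold ents2
      rw [← qx d (by omega), ← qy d (by omega)]
      have e5 : (fun j : Fin n => sqy (x' (d + 2 + j)) (y' (d + 2 + j)) / q4y (x d) (y d)) =
          fun j : Fin n => sqy (x (d + 2 + j)) (y (d + 2 + j)) / q4y (x d) (y d) := by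
        funext j
        rw [qx (d + 2 + j) (by omega), qy (d + 2 + j) (by omega)]
      have e6 : (List.range n).map (fun j => sqx (x' (d + 2 + j)) (y' (d + 2 + j)) - 1) =
          (List.range n).map (fun j => sqx (x (d + 2 + j)) (y (d + 2 + j)) - 1) := by
        refine List.map_congr_left (fun j hj => ?_)
        have := List.mem_range.1 hj
        rw [qx (d + 2 + j) (by omega), qy (d + 2 + j) (by omega)]
      rw [e5, e6]
    rw [e4]
    exact h9

/-- main theorem: soundness over large rings, completeness over the ring generated by one half -/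
theorem r_main (k : ℕ) (S : Set (Fin k → ℕ)) (hS : REPred (fun a => a ∈ S)) (PP : Finset ℕ) :
    ∃ (m r : ℕ) (F : MvPolynomial (Fin (k + k) ⊕ Fin (m + m) ⊕ Fin r) ℤ),
    ∀ (a : Fin k → ℕ) (b : Fin (k + k) → ℤ),
      b = Fin.append (fun i => (a i : ℤ)) (fun i => (2 : ℤ) ^ a i) →
      (a ∈ S → ∃ (e : Fin m → ℕ) (s : Fin m → ℚ) (y : Fin r → ℤ), (∀ i, Sg (s i)) ∧
        aeval (Sum.elim (fun i => (b i : ℚ)) (Sum.elim
          (Fin.append (fun i => ax (e i)) (fun i => s i * ay (e i))) (fun j => (y j : ℚ)))) F = 0) ∧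
      (∀ (u v : Fin m → ℚ) (y : Fin r → ℚ), (∀ i, DenOK PP (u i) ∧ DenOK PP (v i)) →
        aeval (Sum.elim (fun i => (b i : ℚ)) (Sum.elim (Fin.append u v) y)) F = 0 → a ∈ S) := by
  obtain ⟨n, P, hP⟩ := dprm_nat hS
  obtain ⟨C, d, hCd⟩ := eval_bound P
  obtain ⟨m, hm⟩ : ∃ m : ℕ, m = d + 2 + n := ⟨_, rfl⟩
  let T : (ℕ → ℚ) → Prop := fun v =>
    (∀ i < m, DenC PP (v (k + k + i)) ∧ DenC PP (v (k + k + m + i))) ∧
    Read2 P d (C + 1) (fun i : Fin k => v i) (fun i : Fin k => v (k + i))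
      (fun j => v (k + k + j)) (fun j => v (k + k + m + j))
  have hT : Dio T := (K2.Dio.forall_lt (fun i => (dio_denC PP (DioFn.var (k + k + i))).and
    (dio_denC PP (DioFn.var (k + k + m + i)))) m).and
    (dio_read2 P d (C + 1) (fun i => DioFn.var i) (fun i => DioFn.var (k + i))
      (fun j => DioFn.var (k + k + j)) (fun j => DioFn.var (k + k + m + j)))
  obtain ⟨r, F, hF⟩ := pack (k := k + k) (m := m + m) hT
  have ea : ∀ (a : Fin k → ℕ) (w : Fin (m + m) → ℚ) (i : Fin k),
      envT (Fin.append (fun i => (a i : ℤ)) (fun i => (2 : ℤ) ^ a i)) w i = a i := by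
    intro a w i
    have h1 : (i : ℕ) < k + k := by omega
    have h2 : (⟨i, h1⟩ : Fin (k + k)) = Fin.castAdd k i := rfl
    simp only [envT, h1, dif_pos, h2, Fin.append_left]
    simp
  have eb : ∀ (a : Fin k → ℕ) (w : Fin (m + m) → ℚ) (i : Fin k),
      envT (Fin.append (fun i => (a i : ℤ)) (fun i => (2 : ℤ) ^ a i)) w (k + i) = 2 ^ a i := by
    intro a w i
    have h1 : k + (i : ℕ) < k + k := by omega
    have h2 : (⟨k + i, h1⟩ : Fin (k + k)) = Fin.natAdd k i := rfl
    simp only [envT, h1, dif_pos, h2, Fin.append_right]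
    simp
  have ex : ∀ (b : Fin (k + k) → ℤ) (u v : Fin m → ℚ) (i : ℕ) (hi : i < m),
      envT b (Fin.append u v) (k + k + i) = u ⟨i, hi⟩ := by
    intro b u v i hi
    have h1 : ¬ (k + k + i < k + k) := by omega
    have h2 : k + k + i - (k + k) = i := by omega
    have h3 : i < m + m := by omega
    have h4 : (⟨i, h3⟩ : Fin (m + m)) = Fin.castAdd m ⟨i, hi⟩ := rfl
    simp only [envT, h1, dif_neg, not_false_eq_true, h2, h3, dif_pos, h4, Fin.append_left]
  have ey : ∀ (b : Fin (k + k) → ℤ) (u v : Fin m → ℚ) (i : ℕ) (hi : i < m),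
      envT b (Fin.append u v) (k + k + m + i) = v ⟨i, hi⟩ := by
    intro b u v i hi
    have h1 : ¬ (k + k + m + i < k + k) := by omega
    have h2 : k + k + m + i - (k + k) = m + i := by omega
    have h3 : m + i < m + m := by omega
    have h4 : (⟨m + i, h3⟩ : Fin (m + m)) = Fin.natAdd m ⟨i, hi⟩ := rfl
    simp only [envT, h1, dif_neg, not_false_eq_true, h2, h3, dif_pos, h4, Fin.append_right]
  refine ⟨m, r, F, fun a b hb => ⟨fun ha => ?_, fun u v y huv hy => ?_⟩⟩
  · obtain ⟨x, hx⟩ := (hP a).1 ha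
    obtain ⟨e, s, hs, hR⟩ := read2_complete P d (C + 1) a x hx
    obtain ⟨y, hy⟩ := (hF b (Fin.append (fun i : Fin m => ax (e i))
      (fun i : Fin m => s i * ay (e i)))).1 (by
      refine ⟨?_, ?_⟩
      · intro i hi
        rw [ex b _ _ i hi, ey b _ _ i hi]
        refine ⟨?_, ?_⟩
        · exact denC_div PP _ _
        · simp only
          rcases hs i with h | h
          · rw [h, one_mul]; exact denC_div PP _ _
          · have e1 : (-1 : ℚ) * ay (e i) = ((-U (2 * e i) : ℤ) : ℚ) / 2 ^ (e i + 1) := by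
              unfold ay; push_cast; ring
            rw [h, e1]; exact denC_div PP _ _
      · rw [hb]
        have e1 : (fun i : Fin k => envT (Fin.append (fun i => (a i : ℤ)) (fun i => (2 : ℤ) ^ a i))
            (Fin.append (fun i : Fin m => ax (e i)) (fun i : Fin m => s i * ay (e i))) i) =
            fun i => (a i : ℚ) := funext (fun i => ea a _ i)
        have e2 : (fun i : Fin k => envT (Fin.append (fun i => (a i : ℤ)) (fun i => (2 : ℤ) ^ a i))
            (Fin.append (fun i : Fin m => ax (e i)) (fun i : Fin m => s i * ay (e i))) (k + i)) =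
            fun i => (2 : ℚ) ^ a i := funext (fun i => eb a _ i)
        rw [e1, e2]
        refine Read2.congr ?_ hR
        intro j hj
        rw [ex _ _ _ j (by omega), ey _ _ _ j (by omega)]
        exact ⟨rfl, rfl⟩)
    exact ⟨fun i => e i, fun i => s i, y, fun i => hs i, hy⟩
  · obtain ⟨hw1, hw2⟩ := (hF b (Fin.append u v)).2 ⟨y, hy⟩
    rw [hb] at hw2
    have e1 : (fun i : Fin k => envT (Fin.append (fun i => (a i : ℤ)) (fun i => (2 : ℤ) ^ a i))
        (Fin.append u v) i) = fun i => (a i : ℚ) := funext (fun i => ea a _ i)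
    have e2 : (fun i : Fin k => envT (Fin.append (fun i => (a i : ℤ)) (fun i => (2 : ℤ) ^ a i))
        (Fin.append u v) (k + i)) = fun i => (2 : ℚ) ^ a i := funext (fun i => eb a _ i)
    rw [e1, e2, ← hb] at hw2
    obtain ⟨x, hx⟩ := read2_sound P hCd a _ _ (by
      intro i hi
      have hi' : i < m := by omega
      have h1 := hw1 i hi'
      rw [ex b u v i hi', ey b u v i hi'] at h1 ⊢
      exact ⟨h1.1.allowed (huv _).1, h1.2.allowed (huv _).2⟩) hw2
    exact (hP a).2 ⟨x, hx⟩

end Vale.Agent.P027.T2
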