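import Mathlib
import Vale.Agent.P027.R2.H124.Forms

/-! Diophantine predicates and functions with values in a finite extension of the rationals. -/

namespace Vale.Agent.P027.T3

open Vale.Agent.P027 MvPolynomial Module

/-- dropping the first `n` entries -/
def dr (n : ℕ) (v : ℕ → ℚ) : ℕ → ℚ := fun i => v (n + i)

theorem dio_dr {S : (ℕ → ℚ) → Prop} (hS : Dio S) (n : ℕ) : Dio (fun v => S (dr n v)) :=
  Dio.ren hS (fun i => n + i)

theorem fn_dr {f : (ℕ → ℚ) → ℚ} (hf : DioFn f) (n : ℕ) : DioFn (fun v => f (dr n v)) := by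
  have h := Dio.ren hf (fun i => Nat.rec 0 (fun j _ => n + j + 1) i)
  exact h.congr (fun v => Iff.rfl)

theorem fn_congr {f g : (ℕ → ℚ) → ℚ} (hf : DioFn f) (h : ∀ v, g v = f v) : DioFn g := by
  have : g = f := funext h
  rw [this]; exact hf

theorem fn_rat (q : ℚ) : DioFn (fun _ => q) :=
  fn_congr ((DioFn.int q.num).div (DioFn.num q.den)) (fun _ => (Rat.num_div_den q).symm)

set_option linter.unusedVariables false

theorem fn_sum {ι : Type} (s : Finset ι) {f : ι → (ℕ → ℚ) → ℚ} (h : ∀ i, DioFn (f i)) :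
    DioFn (fun v => ∑ i ∈ s, f i v) := by
  classical
  induction s using Finset.induction_on with
  | empty => exact fn_congr zero_fn (fun v => by simp)
  | insert a s ha ih => exact fn_congr ((h a).add ih) (fun v => by rw [Finset.sum_insert ha])

theorem dio_fin {m : ℕ} {S : Fin m → (ℕ → ℚ) → Prop} (h : ∀ i, Dio (S i)) :
    Dio (fun v => ∀ i, S i v) := by
  have h' := K2.Dio.forall_lt (S := fun j v => ∀ hj : j < m, S ⟨j, hj⟩ v) (fun j => by
    by_cases hj : j < m
    · exact (h ⟨j, hj⟩).congr (fun v => by simp [hj])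
    · exact Dio.true.congr (fun v => by simp [hj])) m
  exact h'.congr (fun v => ⟨fun h j hj _ => h ⟨j, hj⟩, fun h i => h i i.2 i.2⟩)

theorem dio_ex_fin {m : ℕ} {S : Fin m → (ℕ → ℚ) → Prop} (h : ∀ i, Dio (S i)) :
    Dio (fun v => ∃ i, S i v) := by
  induction m with
  | zero => exact Dio.false.congr (fun v => by simp)
  | succ m ih =>
    refine ((h 0).or (ih (S := fun i => S i.succ) (fun i => h i.succ))).congr (fun v => ?_)
    rw [Fin.exists_fin_succ]

variable {K : Type} [Field K] [Algebra ℚ K] {n : ℕ} (b : Basis (Fin n) ℚ K)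

/-- functions with values in `K` whose coordinates are Diophantine -/
def FnK (f : (ℕ → ℚ) → K) : Prop := ∀ i, DioFn (fun v => b.repr (f v) i)

/-- the element whose coordinates are the entries from `k` on -/
noncomputable def kv (k : ℕ) (v : ℕ → ℚ) : K := ∑ j : Fin n, v (k + j) • b j

variable {b}

theorem FnK.congr {f g : (ℕ → ℚ) → K} (hf : FnK b f) (h : ∀ v, g v = f v) : FnK b g := by
  have : g = f := funext h
  rw [this]; exact hf

theorem FnK.dr {f : (ℕ → ℚ) → K} (hf : FnK b f) (m : ℕ) : FnK b (fun v => f (dr m v)) :=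
  fun i => fn_dr (hf i) m

theorem fnK_kv (k : ℕ) : FnK b (fun v => kv b k v) := by
  intro i
  refine fn_congr (DioFn.var (k + i)) (fun v => ?_)
  unfold kv
  rw [Basis.repr_sum_self]

theorem FnK.const (c : K) : FnK b (fun _ => c) := fun i => fn_rat _

theorem FnK.add {f g : (ℕ → ℚ) → K} (hf : FnK b f) (hg : FnK b g) :
    FnK b (fun v => f v + g v) :=
  fun i => fn_congr ((hf i).add (hg i)) (fun v => by simp)

theorem FnK.sub {f g : (ℕ → ℚ) → K} (hf : FnK b f) (hg : FnK b g) :
    FnK b (fun v => f v - g v) :=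
  fun i => fn_congr ((hf i).sub (hg i)) (fun v => by simp)

theorem FnK.neg {f : (ℕ → ℚ) → K} (hf : FnK b f) : FnK b (fun v => -f v) :=
  ((FnK.const 0).sub hf).congr (fun v => by simp)

theorem FnK.smul {f : (ℕ → ℚ) → ℚ} {g : (ℕ → ℚ) → K} (hf : DioFn f) (hg : FnK b g) :
    FnK b (fun v => f v • g v) :=
  fun i => fn_congr (hf.mul (hg i)) (fun v => by simp)

theorem FnK.sum {ι : Type} (s : Finset ι) {f : ι → (ℕ → ℚ) → K} (h : ∀ i, FnK b (f i)) :
    FnK b (fun v => ∑ i ∈ s, f i v) :=
  fun j => fn_congr (fn_sum s (fun i => h i j)) (fun v => by simp)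

theorem FnK.lin {f : (ℕ → ℚ) → K} (hf : FnK b f) (σ : K →ₗ[ℚ] K) : FnK b (fun v => σ (f v)) := by
  refine (FnK.sum Finset.univ (fun j : Fin n => FnK.smul (hf j) (FnK.const (σ (b j))))).congr
    (fun v => ?_)
  conv_lhs => rw [← b.sum_repr (f v)]
  rw [map_sum]
  simp

theorem FnK.mul {f g : (ℕ → ℚ) → K} (hf : FnK b f) (hg : FnK b g) :
    FnK b (fun v => f v * g v) := by
  refine (FnK.sum Finset.univ (fun j : Fin n => FnK.smul (hf j)
    (hg.lin (LinearMap.mulLeft ℚ (b j))))).congr (fun v => ?_)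
  conv_lhs => rw [← b.sum_repr (f v)]
  rw [Finset.sum_mul]
  simp

theorem FnK.pow {f : (ℕ → ℚ) → K} (hf : FnK b f) (m : ℕ) : FnK b (fun v => f v ^ m) := by
  induction m with
  | zero => exact (FnK.const 1).congr (fun v => by simp)
  | succ m ih => exact (ih.mul hf).congr (fun v => pow_succ _ _)

theorem FnK.prod {ι : Type} (s : Finset ι) {f : ι → (ℕ → ℚ) → K} (h : ∀ i, FnK b (f i)) :
    FnK b (fun v => ∏ i ∈ s, f i v) := by
  classical
  induction s using Finset.induction_on with
  | empty => exact (FnK.const 1).congr (fun v => by simp)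
  | insert a s ha ih => exact ((h a).mul ih).congr (fun v => by rw [Finset.prod_insert ha])

theorem dioK_eq {f g : (ℕ → ℚ) → K} (hf : FnK b f) (hg : FnK b g) :
    Dio (fun v => f v = g v) := by
  refine (dio_fin (fun i => Dio.eq (hf i) (hg i))).congr (fun v => ?_)
  rw [← b.repr.injective.eq_iff]
  constructor
  · intro h i; rw [h]
  · intro h; ext i; exact h i

/-- quantification over finitely many elements of `K` -/
theorem exKN {m : ℕ} {S : (Fin m → K) → (ℕ → ℚ) → Prop}
    (h : Dio (fun v => S (fun k => kv b (k * n) v) (dr (m * n) v))) :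
    Dio (fun v => ∃ y, S y v) := by
  refine (K2.Dio.exN (m := m * n) h).congr (fun v => ?_)
  have e1 : ∀ w : Fin (m * n) → ℚ, dr (m * n) (K2.appq w v) = v := by
    intro w
    funext i
    simp [dr, K2.appq]
  have hlt : ∀ (k : Fin m) (j : Fin n), (k : ℕ) * n + j < m * n := by
    intro k j
    calc (k : ℕ) * n + j < k * n + n := by omega
      _ = (k + 1) * n := by ring
      _ ≤ m * n := Nat.mul_le_mul_right _ k.2
  have e2 : ∀ (w : Fin (m * n) → ℚ) (k : Fin m), kv b (k * n) (K2.appq w v) =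
      ∑ j : Fin n, w (finProdFinEquiv (k, j)) • b j := by
    intro w k
    unfold kv
    refine Finset.sum_congr rfl (fun j _ => ?_)
    have h1 : (⟨k * n + j, hlt k j⟩ : Fin (m * n)) = finProdFinEquiv (k, j) := by
      apply Fin.ext
      simp [finProdFinEquiv]
      ring
    rw [← h1]
    simp [K2.appq, hlt k j]
  simp only [e1, e2]
  constructor
  · rintro ⟨y, hy⟩
    refine ⟨fun i => b.repr (y (finProdFinEquiv.symm i).1) (finProdFinEquiv.symm i).2, ?_⟩
    simp only [Equiv.symm_apply_apply, b.sum_repr]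
    exact hy
  · rintro ⟨w, hw⟩
    exact ⟨_, hw⟩

/-- quantification over one element of `K` -/
theorem exK {S : K → (ℕ → ℚ) → Prop} (h : Dio (fun v => S (kv b 0 v) (dr n v))) :
    Dio (fun v => ∃ y, S y v) := by
  have h1 := exKN (b := b) (m := 1) (S := fun y v => S (y 0) v) (by simpa using h)
  refine h1.congr (fun v => ?_)
  constructor
  · rintro ⟨y, hy⟩; exact ⟨fun _ => y, hy⟩
  · rintro ⟨y, hy⟩; exact ⟨y 0, hy⟩

/-- substitution -/
theorem subK {S : K → (ℕ → ℚ) → Prop} {f : (ℕ → ℚ) → K} (hf : FnK b f)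
    (h : Dio (fun v => S (kv b 0 v) (dr n v))) : Dio (fun v => S (f v) v) := by
  have h1 := exK (b := b) (S := fun y v => y = f v ∧ S y v)
    ((dioK_eq (fnK_kv 0) (hf.dr n)).and h)
  exact h1.congr (fun v => by simp)

/-- substitution in a predicate without further parameters -/
theorem appK {S : K → Prop} (h : Dio (fun v => S (kv b 0 v))) {f : (ℕ → ℚ) → K} (hf : FnK b f) :
    Dio (fun v => S (f v)) := subK (S := fun y _ => S y) hf h

theorem FnK.inv {f : (ℕ → ℚ) → K} (hf : FnK b f) : FnK b (fun v => (f v)⁻¹) := by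
  intro i
  have h : Dio (fun v => ∃ y : K, ((f (tl v) = 0 ∧ y = 0) ∨ f (tl v) * y = 1) ∧
      v 0 = b.repr y i) := by
    have ht : FnK b (fun v => f (tl v)) := fun j => (hf j).tl
    refine exK (b := b) ?_
    refine Dio.and (Dio.or (Dio.and ?_ ?_) ?_) ?_
    · exact dioK_eq (ht.dr n) (FnK.const 0)
    · exact dioK_eq (fnK_kv 0) (FnK.const 0)
    · exact dioK_eq ((ht.dr n).mul (fnK_kv 0)) (FnK.const 1)
    · exact Dio.eq (DioFn.var n) (fnK_kv 0 i)
  refine h.congr (fun v => ?_)
  constructor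
  · intro h
    refine ⟨(f (tl v))⁻¹, ?_, h⟩
    by_cases h0 : f (tl v) = 0
    · left; rw [h0]; simp
    · right; exact mul_inv_cancel₀ h0
  · rintro ⟨y, h | h, h2⟩
    · rw [h2, h.2]
      simp only [h.1, inv_zero]
    · rw [h2, eq_inv_of_mul_eq_one_right h]

theorem FnK.div {f g : (ℕ → ℚ) → K} (hf : FnK b f) (hg : FnK b g) :
    FnK b (fun v => f v / g v) :=
  (hf.mul hg.inv).congr (fun v => div_eq_mul_inv _ _)

theorem FnK.zpow {f : (ℕ → ℚ) → K} (hf : FnK b f) (m : ℤ) : FnK b (fun v => f v ^ m) := by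
  rcases m with m | m
  · exact (hf.pow m).congr (fun v => by simp)
  · exact (hf.pow (m + 1)).inv.congr (fun v => by simp [zpow_negSucc])

theorem FnK.rat {f : (ℕ → ℚ) → ℚ} (hf : DioFn f) : FnK b (fun v => algebraMap ℚ K (f v)) :=
  (FnK.smul hf (FnK.const 1)).congr (fun v => by rw [Algebra.algebraMap_eq_smul_one])

theorem FnK.aeval {σ : Type} (P : MvPolynomial σ ℤ) {A : σ → (ℕ → ℚ) → K}
    (hA : ∀ i, FnK b (A i)) : FnK b (fun v => MvPolynomial.aeval (fun i => A i v) P) := by
  induction P using MvPolynomial.induction_on with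
  | C a => exact (FnK.const (algebraMap ℤ K a)).congr (fun v => by simp)
  | add p q hp hq => exact (hp.add hq).congr (fun v => by rw [map_add])
  | mul_X p i hp => exact (hp.mul (hA i)).congr (fun v => by rw [map_mul, aeval_X])

/-- norms from an extension of `K` -/
theorem FnK.norm {L : Type} [Field L] [Algebra K L] {m : ℕ} (c : Basis (Fin m) K L)
    {y : Fin m → (ℕ → ℚ) → K} (hy : ∀ k, FnK b (y k)) :
    FnK b (fun v => Algebra.norm K (∑ k, y k v • c k)) := by
  refine FnK.congr (f := fun v => ∑ σ : Equiv.Perm (Fin m), ((Equiv.Perm.sign σ : ℤ) : K) *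
    ∏ i, ∑ k, y k v * c.repr (c k * c i) (σ i)) ?_ ?_
  · refine FnK.sum _ (fun σ => (FnK.const _).mul (FnK.prod _ (fun i => FnK.sum _ (fun k => ?_))))
    exact (hy k).mul (FnK.const _)
  · intro v
    rw [Algebra.norm_eq_matrix_det c, Matrix.det_apply']
    refine Finset.sum_congr rfl (fun σ _ => ?_)
    congr 1
    refine Finset.prod_congr rfl (fun i _ => ?_)
    rw [Algebra.leftMulMatrix_eq_repr_mul, Finset.sum_mul]
    simp

theorem dio_norm {L : Type} [Field L] [Algebra K L] {m : ℕ} (c : Basis (Fin m) K L)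
    {f : (ℕ → ℚ) → K} (hf : FnK b f) : Dio (fun v => ∃ y : L, Algebra.norm K y = f v) := by
  have h := exKN (b := b) (m := m) (S := fun y v => Algebra.norm K (∑ k, y k • c k) = f v)
    (dioK_eq (FnK.norm c (fun k => fnK_kv (k * n))) (hf.dr (m * n)))
  refine h.congr (fun v => ?_)
  constructor
  · rintro ⟨y, hy⟩
    exact ⟨fun k => c.repr y k, by rw [c.sum_repr]; exact hy⟩
  · rintro ⟨y, hy⟩
    exact ⟨_, hy⟩

end Vale.Agent.P027.T3
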