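import Mathlib
import Vale.Agent.P027.R2.H124.FinalT2

/-! The four parts of the theorem on the powers of two. -/

namespace Vale.Agent.P027.T2

open Vale.Agent.P027 MvPolynomial

theorem t2_form (PP : Finset ℕ) (e : ℕ) (he : 1 ≤ e) (k : ℕ) (S : Set (Fin k → ℤ))
    (hS : REPred (fun a => a ∈ S)) : ∃ (m r : ℕ) (F : MvPolynomial (Fin k ⊕ Fin m ⊕ Fin r) ℤ),
    ∀ G R : Set ℚ, (∀ n : ℕ, (2 : ℚ) ^ (e * n) ∈ G) →
      (∀ x ∈ G, x ≠ 0 ∧ ∀ p : ℕ, p.Prime → p ∉ PP → padicValRat p x = 0) →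
      (∀ z : ℤ, (z : ℚ) ∈ R) → ∀ a : Fin k → ℤ,
        (a ∈ S ↔ ∃ (u : Fin m → ℚ) (y : Fin r → ℚ), (∀ i, u i ∈ G) ∧ (∀ j, y j ∈ R) ∧
          aeval (Sum.elim (fun i => (a i : ℚ)) (Sum.elim u y)) F = 0) := by
  obtain ⟨m, r, F, hF⟩ := t2_main k S hS PP e he
  refine ⟨m, r, F, fun G R hG1 hG2 hR a => ⟨fun ha => ?_, ?_⟩⟩
  · obtain ⟨u, y, h⟩ := (hF a).1 ha
    exact ⟨fun i => (2 : ℚ) ^ (e * u i), fun j => (y j : ℚ), fun i => hG1 _, fun j => hR _, h⟩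
  · rintro ⟨u, y, hu, -, h⟩
    exact (hF a).2 u y (fun i => hG2 _ (hu i)) h

/-- the exponent of the largest power of two that divides `n` -/
def lg (n : ℕ) : ℕ := n.findGreatest (fun k => n % 2 ^ k = 0)

theorem primrec_lg : Primrec lg := by
  have h1 : PrimrecRel (fun a k : ℕ => a % 2 ^ k = 0) := by
    have hp : Primrec₂ (fun a b : ℕ => a ^ b) := Primrec₂.unpaired'.1 Nat.Primrec.pow
    exact Primrec.eq.comp (Primrec.nat_mod.comp Primrec.fst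
      (hp.comp (Primrec.const 2) Primrec.snd)) (Primrec.const 0)
  exact Primrec.nat_findGreatest (p := fun a k : ℕ => a % 2 ^ k = 0) Primrec.id h1

theorem lg_two_pow (b : ℕ) : lg (2 ^ b) = b := by
  unfold lg
  rw [Nat.findGreatest_eq_iff]
  refine ⟨Nat.lt_two_pow_self.le, fun _ => by simp, fun n hn _ hc => ?_⟩
  have h1 : 2 ^ n ∣ 2 ^ b := Nat.dvd_of_mod_eq_zero hc
  have h2 := (Nat.pow_dvd_pow_iff_le_right (by norm_num : 1 < 2)).1 h1
  omega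

theorem primrec_toNat : Primrec (fun z : ℤ => z.toNat) := by
  have h3 : Primrec (fun n : ℕ => if n % 2 = 0 then n / 2 else 0) := by
    refine Primrec.ite (Primrec.eq.comp ?_ (Primrec.const 0)) ?_ (Primrec.const 0)
    · exact Primrec.nat_mod.comp Primrec.id (Primrec.const 2)
    · exact Primrec.nat_div.comp Primrec.id (Primrec.const 2)
  refine (h3.comp (Primrec.encode (α := ℤ))).of_eq (fun z => ?_)
  rcases z with n | n
  · have e : Encodable.encode (Int.ofNat n) = 2 * n := rfl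
    rw [e, if_pos (by omega)]
    simp
  · have e : Encodable.encode (Int.negSucc n) = 2 * n + 1 := rfl
    rw [e, if_neg (by omega)]
    rfl

theorem t2_exp (PP : Finset ℕ) (e : ℕ) (he : 1 ≤ e) (k : ℕ) (S : Set (Fin k → ℕ))
    (hS : REPred (fun a => a ∈ S)) : ∃ (m r : ℕ) (F : MvPolynomial (Fin k ⊕ Fin m ⊕ Fin r) ℤ),
    ∀ G R : Set ℚ, (∀ n : ℕ, (2 : ℚ) ^ (e * n) ∈ G) →
      (∀ x ∈ G, x ≠ 0 ∧ ∀ p : ℕ, p.Prime → p ∉ PP → padicValRat p x = 0) →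
      (∀ z : ℤ, (z : ℚ) ∈ R) → ∀ b : Fin k → ℕ,
        (b ∈ S ↔ ∃ (u : Fin m → ℚ) (y : Fin r → ℚ), (∀ i, u i ∈ G) ∧ (∀ j, y j ∈ R) ∧
          aeval (Sum.elim (fun i => (2 : ℚ) ^ b i) (Sum.elim u y)) F = 0) := by
  have hS' : REPred (fun c : Fin k → ℤ => c ∈ {c : Fin k → ℤ | (fun i => lg (c i).toNat) ∈ S}) := by
    have h1 : Primrec (fun (c : Fin k → ℤ) (i : Fin k) => lg (c i).toNat) := by
      refine Primrec.fin_curry.2 ?_
      exact primrec_lg.comp (primrec_toNat.comp Primrec.fin_app)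
    exact Partrec.comp hS h1.to_comp
  obtain ⟨m, r, F, hF⟩ := t2_form PP e he k _ hS'
  refine ⟨m, r, F, fun G R hG1 hG2 hR b => ?_⟩
  have h := hF G R hG1 hG2 hR (fun i => 2 ^ b i)
  have e1 : (fun i => (2 : ℤ) ^ b i) ∈ {c : Fin k → ℤ | (fun i => lg (c i).toNat) ∈ S} ↔
      b ∈ S := by
    rw [Set.mem_ofPred_eq]
    have : (fun i => lg ((2 : ℤ) ^ b i).toNat) = b := by
      funext i
      have h2 : ((2 : ℤ) ^ b i).toNat = 2 ^ b i := by
        have : ((2 : ℤ) ^ b i) = ((2 ^ b i : ℕ) : ℤ) := by push_cast; rfl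
        rw [this, Int.toNat_natCast]
      rw [h2, lg_two_pow]
    rw [this]
  rw [e1] at h
  rw [h]
  simp only [Int.cast_pow, Int.cast_ofNat]

theorem t2_set : ∃ A : Set ℕ, REPred (fun a => a ∈ A) ∧ ¬ REPred (fun a => a ∉ A) ∧
    (∀ B : Set ℕ, REPred (fun n => n ∈ B) →
      ∃ f : ℕ → ℕ, Computable f ∧ ∀ n, (n ∈ B ↔ f n ∈ A)) ∧
    ∀ (PP : Finset ℕ) (e : ℕ), 1 ≤ e → ∃ (m r : ℕ) (F : MvPolynomial (Fin 1 ⊕ Fin m ⊕ Fin r) ℤ),
      ∀ G R : Set ℚ, (∀ n : ℕ, (2 : ℚ) ^ (e * n) ∈ G) →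
      (∀ x ∈ G, x ≠ 0 ∧ ∀ p : ℕ, p.Prime → p ∉ PP → padicValRat p x = 0) →
      (∀ z : ℤ, (z : ℚ) ∈ R) → ∀ a : ℕ,
        (a ∈ A ↔ ∃ (u : Fin m → ℚ) (y : Fin r → ℚ), (∀ i, u i ∈ G) ∧ (∀ j, y j ∈ R) ∧
          aeval (Sum.elim (fun _ => (a : ℚ)) (Sum.elim u y)) F = 0) := by
  obtain ⟨p, hp, huniv⟩ := H434.universal
  refine ⟨{a | p a}, hp, ?_, fun B hB => ?_, fun PP e he => ?_⟩
  · intro h
    obtain ⟨q, hq, hqn⟩ := N1.halting
    obtain ⟨f, hf, hfq⟩ := huniv q hq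
    apply hqn
    have h1 : REPred (fun n => ¬ p (f n)) := N1.comp_re h hf
    exact h1.of_eq (fun n => by rw [← hfq n])
  · obtain ⟨f, hf, hfB⟩ := huniv _ hB
    exact ⟨f, hf, hfB⟩
  · have hS : REPred (fun a : Fin 1 → ℤ => a ∈ {a : Fin 1 → ℤ | p (a 0).toNat}) := by
      have h1 : Computable (fun a : Fin 1 → ℤ => (a 0).toNat) :=
        (primrec_toNat.comp (Primrec.fin_app.comp Primrec.id (Primrec.const 0))).to_comp
      exact N1.comp_re hp h1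
    obtain ⟨m, r, F, hF⟩ := t2_form PP e he 1 _ hS
    refine ⟨m, r, F, fun G R hG1 hG2 hR a => ?_⟩
    have h := hF G R hG1 hG2 hR (fun _ => (a : ℤ))
    simpa using h

/-- if one of the sets `G` is Diophantine over the rationals, so are all recursively enumerable
sets of integers -/
theorem t2_cond (PP : Finset ℕ) (e : ℕ) (he : 1 ≤ e) (G : Set ℚ)
    (hG1 : ∀ n : ℕ, (2 : ℚ) ^ (e * n) ∈ G)
    (hG2 : ∀ x ∈ G, x ≠ 0 ∧ ∀ p : ℕ, p.Prime → p ∉ PP → padicValRat p x = 0)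
    (hG : ∃ (l : ℕ) (g : MvPolynomial (Fin 1 ⊕ Fin l) ℤ), ∀ x : ℚ,
      (x ∈ G ↔ ∃ z : Fin l → ℚ, aeval (Sum.elim (fun _ => x) z) g = 0))
    (k : ℕ) (S : Set (Fin k → ℤ)) (hS : REPred (fun a => a ∈ S)) :
    ∃ (r : ℕ) (F : MvPolynomial (Fin k ⊕ Fin r) ℤ), ∀ a : Fin k → ℤ,
      (a ∈ S ↔ ∃ y : Fin r → ℚ, aeval (Sum.elim (fun i => (a i : ℚ)) y) F = 0) := by
  obtain ⟨m, r, F, hF⟩ := t2_form PP e he k S hS
  obtain ⟨l, g, hg⟩ := hG
  -- unknowns `u i`, `y j`, `z i j`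
  let V : Type := Fin m ⊕ Fin r ⊕ (Fin m × Fin l)
  let eq : Fin (Fintype.card V) ≃ V := (Fintype.equivFin V).symm
  let F₁ : MvPolynomial (Fin k ⊕ V) ℤ :=
    (rename (Sum.elim Sum.inl (fun i => Sum.inr (Sum.elim Sum.inl (fun j => Sum.inr (Sum.inl j)) i)))
      F) ^ 2 + ∑ i : Fin m, (rename (Sum.elim (fun _ => Sum.inr (Sum.inl i))
        (fun j => Sum.inr (Sum.inr (Sum.inr (i, j))))) g) ^ 2
  refine ⟨Fintype.card V, rename (Sum.map id eq.symm) F₁, fun a => ?_⟩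
  have ev : ∀ w : V → ℚ, aeval (Sum.elim (fun i => (a i : ℚ)) w) F₁ =
      (aeval (Sum.elim (fun i => (a i : ℚ)) (Sum.elim (fun i => w (Sum.inl i))
        (fun j => w (Sum.inr (Sum.inl j))))) F) ^ 2 + ∑ i : Fin m,
        (aeval (Sum.elim (fun _ => w (Sum.inl i)) (fun j => w (Sum.inr (Sum.inr (i, j))))) g) ^ 2 := by
    intro w
    simp only [F₁, map_add, map_pow, map_sum, aeval_rename]
    congr 1
    · congr 2
      congr 1
      funext i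
      rcases i with i | i | i <;> rfl
    · refine Finset.sum_congr rfl (fun i _ => ?_)
      congr 2
      congr 1
      funext j
      rcases j with j | j <;> rfl
  have hex : (∃ y : Fin (Fintype.card V) → ℚ,
      aeval (Sum.elim (fun i => (a i : ℚ)) y) (rename (Sum.map id eq.symm) F₁) = 0) ↔
      ∃ w : V → ℚ, aeval (Sum.elim (fun i => (a i : ℚ)) w) F₁ = 0 := by
    have key : ∀ y : Fin (Fintype.card V) → ℚ,
        Sum.elim (fun i => (a i : ℚ)) y ∘ Sum.map id eq.symm =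
          Sum.elim (fun i => (a i : ℚ)) (y ∘ eq.symm) := by
      intro y; funext i; rcases i with i | i <;> rfl
    simp only [aeval_rename, key]
    constructor
    · rintro ⟨y, hy⟩; exact ⟨_, hy⟩
    · rintro ⟨w, hw⟩
      refine ⟨w ∘ eq, ?_⟩
      have : (w ∘ eq) ∘ eq.symm = w := by funext i; simp
      rw [this]
      exact hw
  rw [hex, hF G Set.univ hG1 hG2 (fun _ => Set.mem_univ _) a]
  constructor
  · rintro ⟨u, y, hu, -, h⟩
    choose z hz using fun i => (hg (u i)).1 (hu i)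
    refine ⟨Sum.elim u (Sum.elim y (fun ij => z ij.1 ij.2)), ?_⟩
    rw [ev]
    simp only [Sum.elim_inl, Sum.elim_inr]
    rw [h, Finset.sum_eq_zero (fun i _ => by rw [hz i]; ring)]
    ring
  · rintro ⟨w, hw⟩
    rw [ev] at hw
    have h1 : 0 ≤ ∑ i : Fin m, (aeval (Sum.elim (fun _ => w (Sum.inl i))
        (fun j => w (Sum.inr (Sum.inr (i, j))))) g) ^ 2 := Finset.sum_nonneg (fun i _ => sq_nonneg _)
    have h2 := sq_nonneg (aeval (Sum.elim (fun i => (a i : ℚ)) (Sum.elim (fun i => w (Sum.inl i))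
        (fun j => w (Sum.inr (Sum.inl j))))) F)
    have h3 := pow_eq_zero_iff (n := 2) (by norm_num) |>.1 (le_antisymm (by linarith) h2)
    have h4 : ∑ i : Fin m, (aeval (Sum.elim (fun _ => w (Sum.inl i))
        (fun j => w (Sum.inr (Sum.inr (i, j))))) g) ^ 2 = 0 := le_antisymm (by linarith) h1
    rw [Finset.sum_eq_zero_iff_of_nonneg (fun i _ => sq_nonneg _)] at h4
    refine ⟨_, _, fun i => ?_, fun _ => Set.mem_univ _, h3⟩
    have h5 := pow_eq_zero_iff (n := 2) (by norm_num) |>.1 (h4 i (Finset.mem_univ i))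
    exact (hg _).2 ⟨_, h5⟩

end Vale.Agent.P027.T2
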