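import Mathlib
import Vale.Agent.P027.R2.H124.Final2
import Vale.Agent.P027.R2.H124.MainT2

/-! The parts of the theorem on rings with infinitely many primes in the denominators. -/

namespace Vale.Agent.P027.T2

open Vale.Agent.P027 MvPolynomial

/-- the conditions on the predicate -/
def GOK (PP : Finset ℕ) (G : Set (ℚ × ℚ)) : Prop :=
  (∀ (x y : ℤ) (n : ℕ), x ^ 2 + 7 * y ^ 2 = 4 ^ n → ((x : ℚ) / 2 ^ n, (y : ℚ) / 2 ^ n) ∈ G) ∧
  ∀ g ∈ G, ∀ p : ℕ, p.Prime → p ∣ g.1.den ∨ p ∣ g.2.den →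
    p ∈ PP ∨ p = 2 ∨ p = 7 ∨ p % 7 = 3 ∨ p % 7 = 5 ∨ p % 7 = 6

lemma GOK.mem {PP : Finset ℕ} {G : Set (ℚ × ℚ)} (h : GOK PP G) (n : ℕ) {s : ℚ} (hs : Sg s) :
    (ax n, s * ay n) ∈ G := by
  have h1 := UV_norm (2 * n)
  have e4 : (4 : ℤ) ^ (n + 1) = 4 * 2 ^ (2 * n) := by rw [pow_succ, pow_mul]; norm_num; ring
  rcases hs with hs | hs
  · have := h.1 (V (2 * n)) (U (2 * n)) (n + 1) (by rw [e4, ← h1])
    rw [hs, one_mul]
    exact this
  · have := h.1 (V (2 * n)) (-U (2 * n)) (n + 1) (by rw [e4, ← h1]; ring)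
    have e : (-1 : ℚ) * ay n = ((-U (2 * n) : ℤ) : ℚ) / 2 ^ (n + 1) := by
      unfold ay; push_cast; ring
    rw [hs, e]
    exact this

theorem r_pred (PP : Finset ℕ) (k : ℕ) (S : Set (Fin k → ℕ)) (hS : REPred (fun a => a ∈ S)) :
    ∃ (m r : ℕ) (F : MvPolynomial (Fin k ⊕ Fin k ⊕ Fin m ⊕ Fin m ⊕ Fin r) ℤ),
    ∀ (G : Set (ℚ × ℚ)) (R : Set ℚ), GOK PP G → (∀ z : ℤ, (z : ℚ) ∈ R) → ∀ a : Fin k → ℕ,
      (a ∈ S ↔ ∃ (u v : Fin m → ℚ) (y : Fin r → ℚ), (∀ i, (u i, v i) ∈ G) ∧ (∀ j, y j ∈ R) ∧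
        aeval (Sum.elim (fun i => (a i : ℚ)) (Sum.elim (fun i => (2 : ℚ) ^ a i)
          (Sum.elim u (Sum.elim v y)))) F = 0) := by
  obtain ⟨m, r, F, hF⟩ := r_main k S hS PP
  let φ : Fin (k + k) ⊕ Fin (m + m) ⊕ Fin r → Fin k ⊕ Fin k ⊕ Fin m ⊕ Fin m ⊕ Fin r :=
    Sum.elim (Fin.addCases (fun i => Sum.inl i) (fun i => Sum.inr (Sum.inl i)))
      (Sum.elim (Fin.addCases (fun i => Sum.inr (Sum.inr (Sum.inl i)))
        (fun i => Sum.inr (Sum.inr (Sum.inr (Sum.inl i)))))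
        (fun i => Sum.inr (Sum.inr (Sum.inr (Sum.inr i)))))
  have key : ∀ (a : Fin k → ℕ) (u v : Fin m → ℚ) (y : Fin r → ℚ),
      aeval (Sum.elim (fun i => (a i : ℚ)) (Sum.elim (fun i => (2 : ℚ) ^ a i)
          (Sum.elim u (Sum.elim v y)))) (rename φ F) =
      aeval (Sum.elim (fun i => ((Fin.append (fun i => (a i : ℤ)) (fun i => (2 : ℤ) ^ a i) i : ℤ) : ℚ))
        (Sum.elim (Fin.append u v) y)) F := by
    intro a u v y
    rw [aeval_rename]
    congr 2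
    funext i
    rcases i with i | i | i
    · refine Fin.addCases (fun i => ?_) (fun i => ?_) i
      · simp only [φ, Function.comp_apply, Sum.elim_inl, Sum.elim_inr, Fin.addCases_left,
          Fin.append_left]
        push_cast; rfl
      · simp only [φ, Function.comp_apply, Sum.elim_inl, Sum.elim_inr, Fin.addCases_right,
          Fin.append_right]
        push_cast; rfl
    · refine Fin.addCases (fun i => ?_) (fun i => ?_) i
      · simp only [φ, Function.comp_apply, Sum.elim_inl, Sum.elim_inr, Fin.addCases_left,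
          Fin.append_left]
      · simp only [φ, Function.comp_apply, Sum.elim_inl, Sum.elim_inr, Fin.addCases_right,
          Fin.append_right]
    · simp only [φ, Function.comp_apply, Sum.elim_inl, Sum.elim_inr]
  refine ⟨m, r, rename φ F, fun G R hG hR a => ?_⟩
  obtain ⟨h1, h2⟩ := hF a _ rfl
  constructor
  · intro ha
    obtain ⟨e, s, y, hs, h⟩ := h1 ha
    refine ⟨fun i => ax (e i), fun i => s i * ay (e i), fun j => (y j : ℚ),
      fun i => hG.mem _ (hs i), fun j => hR _, ?_⟩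
    rw [key]
    exact h
  · rintro ⟨u, v, y, huv, -, h⟩
    rw [key] at h
    refine h2 u v y (fun i => ⟨fun p hp hd => ?_, fun p hp hd => ?_⟩) h
    · exact hG.2 _ (huv i) p hp (Or.inl hd)
    · exact hG.2 _ (huv i) p hp (Or.inr hd)

theorem r_rings (PP : Finset ℕ) (k : ℕ) (S : Set (Fin k → ℕ)) (hS : REPred (fun a => a ∈ S)) :
    ∃ (m : ℕ) (F : MvPolynomial (Fin k ⊕ Fin k ⊕ Fin m) ℤ), ∀ R : Set ℚ,
      (∀ (z : ℤ) (n : ℕ), (z : ℚ) / 2 ^ n ∈ R) →
      (∀ x ∈ R, ∀ p : ℕ, p.Prime → p ∣ x.den →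
        p ∈ PP ∨ p = 2 ∨ p = 7 ∨ p % 7 = 3 ∨ p % 7 = 5 ∨ p % 7 = 6) → ∀ a : Fin k → ℕ,
      (a ∈ S ↔ ∃ y : Fin m → ℚ, (∀ j, y j ∈ R) ∧
        aeval (Sum.elim (fun i => (a i : ℚ)) (Sum.elim (fun i => (2 : ℚ) ^ a i) y)) F = 0) := by
  obtain ⟨m, r, F, hF⟩ := r_pred PP k S hS
  let φ : Fin k ⊕ Fin k ⊕ Fin m ⊕ Fin m ⊕ Fin r → Fin k ⊕ Fin k ⊕ Fin (m + m + r) :=
    Sum.map id (Sum.map id (Sum.elim (fun i => Fin.castAdd r (Fin.castAdd m i))
      (Sum.elim (fun i => Fin.castAdd r (Fin.natAdd m i)) (Fin.natAdd (m + m)))))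
  have key : ∀ (a : Fin k → ℕ) (y : Fin (m + m + r) → ℚ),
      aeval (Sum.elim (fun i => (a i : ℚ)) (Sum.elim (fun i => (2 : ℚ) ^ a i) y)) (rename φ F) =
      aeval (Sum.elim (fun i => (a i : ℚ)) (Sum.elim (fun i => (2 : ℚ) ^ a i)
          (Sum.elim (fun i => y (Fin.castAdd r (Fin.castAdd m i)))
            (Sum.elim (fun i => y (Fin.castAdd r (Fin.natAdd m i)))
              (fun i => y (Fin.natAdd (m + m) i)))))) F := by
    intro a y
    rw [aeval_rename]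
    congr 2
    funext i
    rcases i with i | i | i | i | i <;> rfl
  refine ⟨m + m + r, rename φ F, fun R hR1 hR2 a => ?_⟩
  have h := hF (R ×ˢ R) R ⟨fun x y n _ => ⟨hR1 x n, hR1 y n⟩, fun g hg p hp hd => by
    rcases hd with hd | hd
    · exact hR2 _ hg.1 p hp hd
    · exact hR2 _ hg.2 p hp hd⟩ (fun z => by simpa using hR1 z 0) a
  rw [h]
  constructor
  · rintro ⟨u, v, y, huv, hy, h⟩
    refine ⟨Fin.append (Fin.append u v) y, fun j => ?_, ?_⟩
    · refine Fin.addCases (fun i => ?_) (fun i => ?_) j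
      · refine Fin.addCases (fun i => ?_) (fun i => ?_) i
        · rw [Fin.append_left, Fin.append_left]; exact (huv i).1
        · rw [Fin.append_left, Fin.append_right]; exact (huv i).2
      · rw [Fin.append_right]; exact hy i
    · rw [key]
      simp only [Fin.append_left, Fin.append_right]
      exact h
  · rintro ⟨y, hy, h⟩
    rw [key] at h
    exact ⟨_, _, _, fun i => ⟨hy _, hy _⟩, fun j => hy _, h⟩

/-- one complete recursively enumerable set -/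
theorem r_set : ∃ A : Set ℕ, REPred (fun a => a ∈ A) ∧ ¬ REPred (fun a => a ∉ A) ∧
    (∀ B : Set ℕ, REPred (fun n => n ∈ B) →
      ∃ f : ℕ → ℕ, Computable f ∧ ∀ n, (n ∈ B ↔ f n ∈ A)) ∧
    ∀ PP : Finset ℕ, ∃ (m : ℕ) (F : MvPolynomial (Fin 1 ⊕ Fin 1 ⊕ Fin m) ℤ), ∀ R : Set ℚ,
      (∀ (z : ℤ) (n : ℕ), (z : ℚ) / 2 ^ n ∈ R) →
      (∀ x ∈ R, ∀ p : ℕ, p.Prime → p ∣ x.den →
        p ∈ PP ∨ p = 2 ∨ p = 7 ∨ p % 7 = 3 ∨ p % 7 = 5 ∨ p % 7 = 6) → ∀ a : ℕ,
      (a ∈ A ↔ ∃ y : Fin m → ℚ, (∀ j, y j ∈ R) ∧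
        aeval (Sum.elim (fun _ => (a : ℚ)) (Sum.elim (fun _ => (2 : ℚ) ^ a) y)) F = 0) := by
  obtain ⟨p, hp, huniv⟩ := H434.universal
  refine ⟨{a | p a}, hp, ?_, fun B hB => ?_, fun PP => ?_⟩
  · intro h
    obtain ⟨q, hq, hqn⟩ := N1.halting
    obtain ⟨f, hf, hfq⟩ := huniv q hq
    apply hqn
    have h1 : REPred (fun n => ¬ p (f n)) := N1.comp_re h hf
    exact h1.of_eq (fun n => by rw [← hfq n])
  · obtain ⟨f, hf, hfB⟩ := huniv _ hB
    exact ⟨f, hf, hfB⟩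
  · have hS : REPred (fun a : Fin 1 → ℕ => a ∈ {a : Fin 1 → ℕ | p (a 0)}) := by
      have h1 : Computable (fun a : Fin 1 → ℕ => a 0) :=
        (Primrec.fin_app.comp Primrec.id (Primrec.const 0)).to_comp
      exact N1.comp_re hp h1
    obtain ⟨m, F, hF⟩ := r_rings PP 1 _ hS
    refine ⟨m, F, fun R hR1 hR2 a => ?_⟩
    have h := hF R hR1 hR2 (fun _ => a)
    simpa using h

/-- if one of the sets `G` is Diophantine over the rationals, so are the recursively enumerable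
sets of natural numbers, given with their powers of two -/
theorem r_cond (PP : Finset ℕ) (G : Set (ℚ × ℚ)) (hGOK : GOK PP G)
    (hG : ∃ (l : ℕ) (g : MvPolynomial (Fin 2 ⊕ Fin l) ℤ), ∀ x y : ℚ,
      ((x, y) ∈ G ↔ ∃ z : Fin l → ℚ, aeval (Sum.elim ![x, y] z) g = 0))
    (k : ℕ) (S : Set (Fin k → ℕ)) (hS : REPred (fun a => a ∈ S)) :
    ∃ (r : ℕ) (F : MvPolynomial (Fin k ⊕ Fin k ⊕ Fin r) ℤ), ∀ a : Fin k → ℕ,
      (a ∈ S ↔ ∃ y : Fin r → ℚ,
        aeval (Sum.elim (fun i => (a i : ℚ)) (Sum.elim (fun i => (2 : ℚ) ^ a i) y)) F = 0) := by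
  obtain ⟨m, r, F, hF⟩ := r_pred PP k S hS
  obtain ⟨l, g, hg⟩ := hG
  -- unknowns `u i`, `v i`, `y j`, `z i j`
  let W : Type := Fin m ⊕ Fin m ⊕ Fin r ⊕ (Fin m × Fin l)
  let eq : Fin (Fintype.card W) ≃ W := (Fintype.equivFin W).symm
  let F₁ : MvPolynomial (Fin k ⊕ Fin k ⊕ W) ℤ :=
    (rename (Sum.map id (Sum.map id (Sum.elim Sum.inl (Sum.elim (fun i => Sum.inr (Sum.inl i))
      (fun j => Sum.inr (Sum.inr (Sum.inl j))))))) F) ^ 2 +
    ∑ i : Fin m, (rename (Sum.elim (![Sum.inr (Sum.inr (Sum.inl i)),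
      Sum.inr (Sum.inr (Sum.inr (Sum.inl i)))] : Fin 2 → Fin k ⊕ Fin k ⊕ W)
        (fun j => Sum.inr (Sum.inr (Sum.inr (Sum.inr (Sum.inr (i, j))))))) g) ^ 2
  refine ⟨Fintype.card W, rename (Sum.map id (Sum.map id eq.symm)) F₁, fun a => ?_⟩
  have ev : ∀ w : W → ℚ, aeval (Sum.elim (fun i => (a i : ℚ))
        (Sum.elim (fun i => (2 : ℚ) ^ a i) w)) F₁ =
      (aeval (Sum.elim (fun i => (a i : ℚ)) (Sum.elim (fun i => (2 : ℚ) ^ a i)
        (Sum.elim (fun i => w (Sum.inl i)) (Sum.elim (fun i => w (Sum.inr (Sum.inl i)))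
          (fun j => w (Sum.inr (Sum.inr (Sum.inl j)))))))) F) ^ 2 + ∑ i : Fin m,
        (aeval (Sum.elim ![w (Sum.inl i), w (Sum.inr (Sum.inl i))]
          (fun j => w (Sum.inr (Sum.inr (Sum.inr (i, j)))))) g) ^ 2 := by
    intro w
    simp only [F₁, map_add, map_pow, map_sum, aeval_rename]
    congr 1
    · congr 2
      congr 1
      funext i
      rcases i with i | i | i | i | i <;> rfl
    · refine Finset.sum_congr rfl (fun i _ => ?_)
      congr 2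
      congr 1
      funext j
      rcases j with j | j
      · fin_cases j <;> rfl
      · rfl
  have hex : (∃ y : Fin (Fintype.card W) → ℚ,
      aeval (Sum.elim (fun i => (a i : ℚ)) (Sum.elim (fun i => (2 : ℚ) ^ a i) y))
        (rename (Sum.map id (Sum.map id eq.symm)) F₁) = 0) ↔
      ∃ w : W → ℚ, aeval (Sum.elim (fun i => (a i : ℚ))
        (Sum.elim (fun i => (2 : ℚ) ^ a i) w)) F₁ = 0 := by
    have key : ∀ y : Fin (Fintype.card W) → ℚ,
        Sum.elim (fun i => (a i : ℚ)) (Sum.elim (fun i => (2 : ℚ) ^ a i) y) ∘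
          Sum.map id (Sum.map id eq.symm) =
          Sum.elim (fun i => (a i : ℚ)) (Sum.elim (fun i => (2 : ℚ) ^ a i) (y ∘ eq.symm)) := by
      intro y; funext i; rcases i with i | i | i <;> rfl
    simp only [aeval_rename, key]
    constructor
    · rintro ⟨y, hy⟩; exact ⟨_, hy⟩
    · rintro ⟨w, hw⟩
      refine ⟨w ∘ eq, ?_⟩
      have : (w ∘ eq) ∘ eq.symm = w := by funext i; simp
      rw [this]
      exact hw
  rw [hex, hF G Set.univ hGOK (fun _ => Set.mem_univ _) a]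
  constructor
  · rintro ⟨u, v, y, hu, -, h⟩
    choose z hz using fun i => (hg (u i) (v i)).1 (hu i)
    refine ⟨Sum.elim u (Sum.elim v (Sum.elim y (fun ij => z ij.1 ij.2))), ?_⟩
    rw [ev]
    simp only [Sum.elim_inl, Sum.elim_inr]
    rw [h, Finset.sum_eq_zero (fun i _ => by rw [hz i]; ring)]
    ring
  · rintro ⟨w, hw⟩
    rw [ev] at hw
    have h1 : 0 ≤ ∑ i : Fin m, (aeval (Sum.elim ![w (Sum.inl i), w (Sum.inr (Sum.inl i))]
          (fun j => w (Sum.inr (Sum.inr (Sum.inr (i, j)))))) g) ^ 2 :=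
      Finset.sum_nonneg (fun i _ => sq_nonneg _)
    have h2 := sq_nonneg (aeval (Sum.elim (fun i => (a i : ℚ)) (Sum.elim (fun i => (2 : ℚ) ^ a i)
        (Sum.elim (fun i => w (Sum.inl i)) (Sum.elim (fun i => w (Sum.inr (Sum.inl i)))
          (fun j => w (Sum.inr (Sum.inr (Sum.inl j)))))))) F)
    have h3 := pow_eq_zero_iff (n := 2) (by norm_num) |>.1 (le_antisymm (by linarith) h2)
    have h4 : ∑ i : Fin m, (aeval (Sum.elim ![w (Sum.inl i), w (Sum.inr (Sum.inl i))]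
          (fun j => w (Sum.inr (Sum.inr (Sum.inr (i, j)))))) g) ^ 2 = 0 :=
      le_antisymm (by linarith) h1
    rw [Finset.sum_eq_zero_iff_of_nonneg (fun i _ => sq_nonneg _)] at h4
    refine ⟨_, _, _, fun i => ?_, fun _ => Set.mem_univ _, h3⟩
    have h5 := pow_eq_zero_iff (n := 2) (by norm_num) |>.1 (h4 i (Finset.mem_univ i))
    exact (hg _ _).2 ⟨_, h5⟩

end Vale.Agent.P027.T2
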