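import Mathlib
import Vale.Agent.P027.R2.H124.Read
import Vale.Agent.P027.R2.H250.Cap7
import Vale.Agent.P027.R2.H250.PrimeV
import Vale.Agent.P027.R2.H250.Group
import Vale.Agent.P027.R2.H18.LucasMod

namespace Vale.Agent.P027.T2

def N2 (x : ℚ) : Prop := ∃ a b : ℚ, x = a ^ 2 - 2 * b ^ 2

theorem powU_iff (n : ℕ) (hn : 1 ≤ n) : N2 ((U (2 * n) : ℚ) / 3) ↔ ∃ w, 1 ≤ w ∧ n = 2 ^ w := by
  sorry

theorem prodU_iff (w v u : ℕ) (hw : 1 ≤ w) (hv : 1 ≤ v) (hu : 1 ≤ u) :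
    N2 ((U (4 * (2 ^ (w + u) - 2 ^ w)) : ℚ) / U (4 * (2 ^ v - 1))) ↔ u = v := by
  sorry

end Vale.Agent.P027.T2
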